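import Crest.Agent.R268.Frame

set_option autoImplicit false

namespace Crest.Agent.R268

open MvPolynomial Crest.Agent.R256

section
variable {S T : Type*} [CommRing S] [CommRing T]

def cA (x u w : S) : S := u ^ 3 + x * w
def cB (x u v : S) : S := u ^ 2 + x * v
def rA (x u v w : S) : S := u * w - 2 * u ^ 2 * v - x * v ^ 2
def rB (u v w : S) : S := w - u * v
def cC (x u v w : S) : S := cA x u w * rB u v w + cB x u v * rA x u v w
def al (C : S) : S := 2 * C ^ 2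
def be (B C : S) : S := -3 * B * C - 3 * C ^ 3

/-- the frame `(A', F, B', M)` -/
def fr (x u v w : S) : Fin 4 → S :=
  ![cA x u w + cC x u v w ^ 3,
    x + cA x u w * al (cC x u v w) + cB x u v * be (cB x u v) (cC x u v w),
    cB x u v + cC x u v w ^ 2,
    u + al (cC x u v w) * rA x u v w - be (cB x u v) (cC x u v w) * rB u v w]

lemma map_cC {F : Type*} [FunLike F S T] [RingHomClass F S T] (φ : F) (x u v w : S) :
    φ (cC x u v w) = cC (φ x) (φ u) (φ v) (φ w) := by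
  simp [cC, cA, cB, rA, rB, map_ofNat]

lemma map_fr {F : Type*} [FunLike F S T] [RingHomClass F S T] (φ : F) (x u v w : S) (i : Fin 4) :
    φ (fr x u v w i) = fr (φ x) (φ u) (φ v) (φ w) i := by
  fin_cases i <;> simp [fr, map_cC, cA, cB, rA, rB, al, be, map_ofNat]

lemma x_mul_cC (x u v w : S) : x * cC x u v w = cA x u w ^ 2 - cB x u v ^ 3 := by
  simp only [cC, cA, cB, rA, rB]; ring

lemma fr_rel (x u v w : S) :
    fr x u v w 1 * cC x u v w = fr x u v w 0 ^ 2 - fr x u v w 2 ^ 3 := by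
  have h := x_mul_cC x u v w
  simp only [fr, al, be, Matrix.cons_val]
  linear_combination h

lemma fr_surj [IsDomain S] [Nontrivial T] (ψ : S →+* T) {t t' : S} (ht : t * t' = 1) (a b c : S)
    (hψ : ψ a ^ 2 = ψ b ^ 3) : ∃ x u v w, fr x u v w = ![a, t, b, c] := by
  obtain ⟨C, hC⟩ : ∃ C, C = (a ^ 2 - b ^ 3) * t' := ⟨_, rfl⟩
  obtain ⟨A, hA⟩ : ∃ A, A = a - C ^ 3 := ⟨_, rfl⟩
  obtain ⟨B, hB⟩ : ∃ B, B = b - C ^ 2 := ⟨_, rfl⟩
  obtain ⟨α, hα⟩ : ∃ α, α = al C := ⟨_, rfl⟩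
  obtain ⟨β, hβ⟩ : ∃ β, β = be B C := ⟨_, rfl⟩
  obtain ⟨x, hx⟩ : ∃ x, x = t - (A * α + B * β) := ⟨_, rfl⟩
  have hx0 : x ≠ 0 := by
    intro h0
    have h1 : ψ C = 0 := by rw [hC]; simp [hψ]
    have h2 : ψ t = 0 := by
      have := congrArg ψ hx
      rw [h0, hα, hβ] at this
      simpa [al, be, h1] using this.symm
    have := congrArg ψ ht
    simp [h2] at this
  have hxC : x * C = A ^ 2 - B ^ 3 := by
    have h1 : t * C = a ^ 2 - b ^ 3 := by rw [hC]; linear_combination (a ^ 2 - b ^ 3) * ht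
    rw [hx, hα, hβ, al, be, hA, hB]
    linear_combination h1
  have ht' : (x + (A * α + B * β)) * t' = 1 := by rw [hx]; linear_combination ht
  obtain ⟨u₀, hu⟩ : ∃ u₀, u₀ = t' * (B ^ 2 * α + A * β) := ⟨_, rfl⟩
  obtain ⟨v₀, hv⟩ : ∃ v₀, v₀ = t' ^ 2 * (B * (x + 2 * (A * α + B * β)) - C * (β ^ 2 - B * α ^ 2)) :=
    ⟨_, rfl⟩
  obtain ⟨w₀, hw⟩ : ∃ w₀, w₀ = t' ^ 3 * (A * (x ^ 2 + 3 * x * (A * α + B * β) +
    3 * (A * α + B * β) ^ 2) + α * C * (A * α + B * β) ^ 2 -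
    C * (β ^ 2 - B * α ^ 2) * (B ^ 2 * α + A * β)) := ⟨_, rfl⟩
  have eB : u₀ ^ 2 + x * v₀ = B := by
    rw [hu, hv]
    linear_combination (-t' ^ 2 * (β ^ 2 - B * α ^ 2)) * hxC +
      B * ((x + (A * α + B * β)) * t' + 1) * ht'
  have eA : u₀ ^ 3 + x * w₀ = A := by
    rw [hu, hw]
    linear_combination (t' ^ 3 * (α * (A * α + B * β) ^ 2 - (β ^ 2 - B * α ^ 2) * (B ^ 2 * α + A * β))) * hxC +
      A * (((x + (A * α + B * β)) * t') ^ 2 + (x + (A * α + B * β)) * t' + 1) * ht'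
  obtain ⟨τ, hτ⟩ : ∃ τ, τ = t' * (c - (u₀ + α * rA x u₀ v₀ w₀ - β * rB u₀ v₀ w₀)) := ⟨_, rfl⟩
  obtain ⟨u, hu'⟩ : ∃ u, u = u₀ + x * τ := ⟨_, rfl⟩
  obtain ⟨v, hv'⟩ : ∃ v, v = v₀ - 2 * u₀ * τ - x * τ ^ 2 := ⟨_, rfl⟩
  obtain ⟨w, hw'⟩ : ∃ w, w = w₀ - 3 * u₀ ^ 2 * τ - 3 * u₀ * x * τ ^ 2 - x ^ 2 * τ ^ 3 := ⟨_, rfl⟩
  have fA : cA x u w = A := by rw [cA, hu', hw']; linear_combination eA
  have fB : cB x u v = B := by rw [cB, hu', hv']; linear_combination eB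
  have fC : cC x u v w = C := mul_left_cancel₀ hx0 (by rw [x_mul_cC, fA, fB, hxC])
  have fa : rA x u v w = rA x u₀ v₀ w₀ + A * τ := by
    rw [rA, rA, hu', hv', hw', ← eA]; ring
  have fb : rB u v w = rB u₀ v₀ w₀ - B * τ := by
    rw [rB, rB, hu', hv', hw', ← eB]; ring
  refine ⟨x, u, v, w, ?_⟩
  rw [fr, fA, fB, fC, fa, fb, ← hα, ← hβ]
  congr 1
  · rw [hA]; ring
  congr 1
  · rw [hx]; ring
  congr 1
  · rw [hB]; ring
  congr 1
  rw [hu']
  linear_combination (x + (A * α + B * β)) * hτ +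
    (c - (u₀ + α * rA x u₀ v₀ w₀ - β * rB u₀ v₀ w₀)) * ht'

lemma fr_gen [Algebra ℂ S] (x u v w : S) (E : Subalgebra ℂ S) (hE : ∀ i, fr x u v w i ∈ E)
    (hs : ∀ f, fr x u v w 1 * f ∈ E → f ∈ E) : x ∈ E ∧ u ∈ E ∧ v ∈ E ∧ w ∈ E := by
  have hC : cC x u v w ∈ E := hs _ (by
    rw [fr_rel]; exact E.sub_mem (E.pow_mem (hE 0) _) (E.pow_mem (hE 2) _))
  have h0 := hE 0
  have h1 := hE 1
  have h2 := hE 2
  have h3 := hE 3
  have e1 : x * rB u v w = cA x u w - u * cB x u v := by simp only [cA, cB, rB]; ring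
  have e2 : x * rA x u v w = u * cA x u w - cB x u v ^ 2 := by simp only [cA, cB, rA]; ring
  have e3 : cA x u w * rB u v w + cB x u v * rA x u v w = cC x u v w := rfl
  have e4 : v * cB x u v = u * rB u v w - rA x u v w := by simp only [cB, rA, rB]; ring
  have e5 : v * cA x u w = u * (v * cB x u v) + (x * v) * rB u v w := by
    simp only [cA, cB, rB]; ring
  have e6 : x * v = cB x u v - u ^ 2 := by simp only [cB]; ring
  have e7 : w = rB u v w + u * v := by simp only [rB]; ring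
  simp only [fr, Matrix.cons_val] at h0 h1 h2 h3 hs
  have hα : al (cC x u v w) ∈ E := E.mul_mem (E.natCast_mem 2) (E.pow_mem hC _)
  generalize cC x u v w = C at *
  generalize cA x u w = A at *
  generalize cB x u v = B at *
  generalize rA x u v w = ra at *
  generalize rB u v w = rb at *
  have hA : A ∈ E := by simpa using E.sub_mem h0 (E.pow_mem hC 3)
  have hB : B ∈ E := by simpa using E.sub_mem h2 (E.pow_mem hC 2)
  have hβ : be B C ∈ E := E.sub_mem (E.mul_mem (E.mul_mem (E.neg_mem (E.natCast_mem 3)) hB) hC)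
    (E.mul_mem (E.natCast_mem 3) (E.pow_mem hC _))
  generalize al C = α at *
  generalize be B C = β at *
  have hx : x ∈ E := by
    simpa using E.sub_mem (E.sub_mem h1 (E.mul_mem hB hβ)) (E.mul_mem hA hα)
  generalize hM : u + α * ra - β * rb = M at h3
  have hu : u ∈ E := hs _ (by
    have : (x + A * α + B * β) * u = B ^ 2 * α + A * β + x * M := by
      rw [← hM]; linear_combination -α * e2 + β * e1
    rw [this]
    exact E.add_mem (E.add_mem (E.mul_mem (E.pow_mem hB _) hα) (E.mul_mem hA hβ)) (E.mul_mem hx h3))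
  have hrb : rb ∈ E := hs _ (by
    have : (x + A * α + B * β) * rb = A + α * C - B * M := by
      rw [← hM]; linear_combination e1 + α * e3
    rw [this]
    exact E.sub_mem (E.add_mem hA (E.mul_mem hα hC)) (E.mul_mem hB h3))
  have hra : ra ∈ E := hs _ (by
    have : (x + A * α + B * β) * ra = A * M - B ^ 2 + β * C := by
      rw [← hM]; linear_combination e2 + β * e3
    rw [this]
    exact E.add_mem (E.sub_mem (E.mul_mem hA h3) (E.pow_mem hB _)) (E.mul_mem hβ hC))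
  have hvB : v * B ∈ E := e4 ▸ E.sub_mem (E.mul_mem hu hrb) hra
  have hxv : x * v ∈ E := e6 ▸ E.sub_mem hB (E.pow_mem hu _)
  have hvA : v * A ∈ E := e5 ▸ E.add_mem (E.mul_mem hu hvB) (E.mul_mem hxv hrb)
  have hv : v ∈ E := hs _ (by
    have : (x + A * α + B * β) * v = x * v + α * (v * A) + β * (v * B) := by ring
    rw [this]
    exact E.add_mem (E.add_mem hxv (E.mul_mem hα hvA)) (E.mul_mem hβ hvB))
  exact ⟨hx, hu, hv, e7 ▸ E.add_mem hrb (E.mul_mem hu hv)⟩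

end

/-- the frame in `ℂ[x,u,v,w]` -/
noncomputable def yC : Fin 4 → R := fr (X 0) (X 1) (X 2) (X 3)

lemma gen_yC : Gen yC := by
  have hh : yC 1 ∈ (aeval yC : R →ₐ[ℂ] R).range := ⟨X 1, by simp⟩
  obtain ⟨h0, h1, h2, h3⟩ := fr_gen (X 0) (X 1) (X 2) (X 3) (sat (yC 1) _ hh)
    (fun i => mem_sat_of_mem ⟨X i, by simp [yC]⟩)
    (fun f hf => mem_sat_of_pow_mul 1 (by rwa [pow_one]))
  refine gen_of_X fun i => ?_
  have : (X i : R) ∈ sat (yC 1) (aeval yC : R →ₐ[ℂ] R).range hh := by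
    fin_cases i
    exacts [h0, h1, h2, h3]
  obtain ⟨N, G, hG⟩ := this
  exact ⟨N, G, hG.symm⟩

lemma exists_piC {S T : Type*} [CommRing S] [CommRing T] [Algebra ℂ S] [IsDomain S] [Nontrivial T]
    (ψ : S →+* T) {t t' : S} (ht : t * t' = 1) (a b c : S)
    (hψ : ψ a ^ 2 = ψ b ^ 3) : ∃ p : R →ₐ[ℂ] S, ∀ i, p (yC i) = ![a, t, b, c] i := by
  obtain ⟨x, u, v, w, h⟩ := fr_surj ψ ht a b c hψ
  refine ⟨aeval ![x, u, v, w], fun i => ?_⟩
  rw [yC, map_fr, ← h]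
  simp

noncomputable def ptC : Fin 4 → ℂ := ![2, 0, -1 / 2, -1 / 2]

lemma eval_yC_one : eval ptC (yC 1) = 0 := by
  rw [yC, map_fr]
  simp [fr, ptC, cC, cA, cB, rA, rB, al, be]
  norm_num

lemma crit_yC (i : Fin 4) : eval ptC (pderiv i (yC 1)) = 0 := by
  have h := congrArg (fun f => eval ptC (pderiv i f)) (fr_rel (X 0 : R) (X 1) (X 2) (X 3))
  have h0 : eval ptC (fr (X 0 : R) (X 1) (X 2) (X 3) 0) = 0 := by
    rw [map_fr]
    simp [fr, ptC, cC, cA, cB, rA, rB]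
    norm_num
  have h2 : eval ptC (fr (X 0 : R) (X 1) (X 2) (X 3) 2) = 0 := by
    rw [map_fr]
    simp [fr, ptC, cC, cA, cB, rA, rB]
    norm_num
  have hC : eval ptC (cC (X 0 : R) (X 1) (X 2) (X 3)) = 1 := by
    rw [map_cC]
    simp [ptC, cC, cA, cB, rA, rB]
    norm_num
  have h1 := eval_yC_one
  rw [yC] at h1 ⊢
  simpa [Derivation.leibniz, Derivation.leibniz_pow, h0, h1, h2, hC] using h

lemma fibre_yC : Nonempty ((R ⧸ Ideal.span {yC 1 - C 1}) ≃ₐ[ℂ] MvPolynomial (Fin 3) ℂ) := by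
  obtain ⟨p, hp⟩ := exists_piC (S := MvPolynomial (Fin 3) ℂ) (eval fun _ => (0 : ℂ)) (mul_one 1)
    (X 0) (X 1) (X 2) (by simp)
  exact fibre_iso gen_yC one_ne_zero p (hp 0) (by rw [hp]; simp) (hp 2) (hp 3)

/-- all monomials to `1` -/
noncomputable def aug : L →ₐ[ℂ] ℂ := AddMonoidAlgebra.lift ℂ ℂ M 1

lemma aug_xL (i : Fin 4) : aug (xL i) = 1 := by simp [aug, xL]

lemma exists_piL : ∃ p : R →ₐ[ℂ] L, ∀ i, p (yC i) = xL i := by
  obtain ⟨p, hp⟩ := exists_piC (aug : L →+* ℂ) (xL_mul_xI 1) (xL 0) (xL 2) (xL 3) (by simp [aug_xL])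
  refine ⟨p, fun i => ?_⟩
  rw [hp]
  fin_cases i <;> rfl

end Crest.Agent.R268
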