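import Crest.Agent.R268.Crit

set_option autoImplicit false

namespace Crest.Agent.R268

open MvPolynomial Crest.Agent.R256

lemma pderiv_comm {σ : Type*} (i j : σ) (G : MvPolynomial σ ℂ) :
    pderiv i (pderiv j G) = pderiv j (pderiv i G) := by
  classical
  have h : ∀ i j l : σ, pderiv i (pderiv j (X l : MvPolynomial σ ℂ)) = 0 := by
    intro i j l
    by_cases h : l = j
    · subst h; simp
    · rw [pderiv_X_of_ne h, map_zero]
  induction G using MvPolynomial.induction_on with
  | C c => simp
  | add p q hp hq => simp only [map_add, hp, hq]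
  | mul_X p l hp =>
    simp only [Derivation.leibniz, smul_eq_mul, map_add, h, hp]
    ring

lemma mem_adjoin_of_pderiv {σ : Type*} (l₀ : σ) (G : MvPolynomial σ ℂ)
    (h : ∀ l, l ≠ l₀ → pderiv l G = 0) : G ∈ Algebra.adjoin ℂ {(X l₀ : MvPolynomial σ ℂ)} := by
  classical
  rw [← Set.image_singleton, ← supported_eq_adjoin_X, mem_supported]
  intro l hl
  by_contra hne
  obtain ⟨d, hd, hl'⟩ := (mem_vars_iff_mem_support l).mp hl
  have h1 := congrArg (coeff (d - Finsupp.single l 1)) (h l hne)
  have h2 : d - Finsupp.single l 1 + Finsupp.single l 1 = d :=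
    tsub_add_cancel_of_le (by
      rw [Finsupp.single_le_iff]
      exact Nat.one_le_iff_ne_zero.mpr (Finsupp.mem_support_iff.mp hl'))
  rw [coeff_pderiv, h2, coeff_zero] at h1
  rcases mul_eq_zero.mp h1 with h3 | h3
  · exact mem_support_iff.mp hd h3
  · exact Nat.cast_add_one_ne_zero _ h3

theorem abstract_family {σ ι : Type*} [Fintype σ] [Fintype ι] [DecidableEq σ]
    (Y : σ → MvPolynomial σ ℂ) (l₀ : σ) (k : ι → σ) (hk : Function.Injective k)
    (hk0 : ∀ l, l ≠ l₀ → ∃ a, k a = l) (hk1 : ∀ a, k a ≠ l₀)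
    (D : ι → Derivation ℂ (MvPolynomial σ ℂ) (MvPolynomial σ ℂ)) (n : ι → ℕ)
    (hD : ∀ a l, D a (Y l) = if l = k a then Y l₀ ^ n a else 0)
    (hG : ∀ f, ∃ (N : ℕ) (G : MvPolynomial σ ℂ), Y l₀ ^ N * f = aeval Y G)
    (hinj : Function.Injective (aeval Y : MvPolynomial σ ℂ →ₐ[ℂ] MvPolynomial σ ℂ))
    (pt : σ → ℂ) (h0 : eval pt (Y l₀) = 0) (hc : ∀ i, eval pt (pderiv i (Y l₀)) = 0) (j : σ) :
    (∀ a b p, D a (D b p) = D b (D a p)) ∧ (∀ a p, ∃ k : ℕ, (D a)^[k] p = 0) ∧
      LinearIndependent (MvPolynomial σ ℂ) D ∧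
      (∀ p, (∀ a, D a p = 0) ↔ p ∈ Algebra.adjoin ℂ {Y l₀}) ∧
      ∀ g, (∀ a, D a g = 0) → ¬ ∃ τ : MvPolynomial σ ℂ ≃ₐ[ℂ] MvPolynomial σ ℂ, τ g = X j := by
  set F := Y l₀ with hF
  have hF0 : F ≠ 0 := fun h => X_ne_zero (R := ℂ) l₀ (hinj (by rw [aeval_X, ← hF, h, map_zero]))
  have hDF : ∀ a, D a F = 0 := fun a => by rw [hF, hD, if_neg (hk1 a).symm]
  have hDN : ∀ a (N : ℕ) f, D a (F ^ N * f) = F ^ N * D a f := by
    intro a N f
    rw [Derivation.leibniz, Derivation.leibniz_pow, hDF]; simp
  have hev : ∀ a (G : MvPolynomial σ ℂ), D a (aeval Y G) = F ^ n a * aeval Y (pderiv (k a) G) := by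
    intro a G
    induction G using MvPolynomial.induction_on with
    | C c => rw [algHom_C, Derivation.map_algebraMap]; simp
    | add p q hp hq => simp only [map_add, hp, hq, mul_add]
    | mul_X p l hp =>
      simp only [map_mul, aeval_X, Derivation.leibniz, smul_eq_mul, map_add, hp, hD]
      by_cases h : l = k a
      · subst h; simp; ring
      · rw [if_neg h, pderiv_X_of_ne h]; simp; ring
  have hker : ∀ p, (∀ a, D a p = 0) → p ∈ Algebra.adjoin ℂ {F} := by
    intro p hp
    obtain ⟨N, G, hG'⟩ := hG p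
    have h1 : G ∈ Algebra.adjoin ℂ {(X l₀ : MvPolynomial σ ℂ)} := by
      refine mem_adjoin_of_pderiv l₀ G fun l hl => ?_
      obtain ⟨a, rfl⟩ := hk0 l hl
      have h2 := hev a G
      rw [← hG', hDN, hp, mul_zero] at h2
      exact hinj (by rw [map_zero]; exact (mul_eq_zero.mp h2.symm).resolve_left (pow_ne_zero _ hF0))
    have h2 : F ^ N * p ∈ Algebra.adjoin ℂ {F} := by
      rw [hG']
      have := Subalgebra.mem_map.mpr ⟨G, h1, (rfl : aeval Y G = aeval Y G)⟩
      rwa [AlgHom.map_adjoin_singleton, aeval_X] at this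
    clear hG' h1 hp
    induction N with
    | zero => simpa using h2
    | succ N ih =>
      apply ih
      rw [Algebra.adjoin_singleton_eq_range_aeval] at h2 ⊢
      obtain ⟨P, hP⟩ := h2
      change Polynomial.aeval F P = _ at hP
      rw [← Polynomial.X_mul_divX_add P] at hP
      simp only [map_add, map_mul, Polynomial.aeval_X, Polynomial.aeval_C] at hP
      have h3 := congrArg (eval pt) hP
      simp only [map_add, map_mul, map_pow, h0, zero_mul, zero_add, algebraMap_eq, eval_C,
        pow_succ, mul_zero] at h3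
      rw [h3, map_zero, add_zero] at hP
      exact ⟨P.divX, mul_left_cancel₀ hF0 (by
        change F * Polynomial.aeval F P.divX = _
        rw [hP]; ring)⟩
  refine ⟨fun a b p => ?_, fun a p => ?_, ?_, fun p => ⟨hker p, fun hp a => ?_⟩, fun g hg => ?_⟩
  · obtain ⟨N, G, hG'⟩ := hG p
    refine mul_left_cancel₀ (pow_ne_zero N hF0) ?_
    rw [← hDN, ← hDN, ← hDN, ← hDN, hG', hev, hev, hDN, hDN, hev, hev, pderiv_comm]
    ring
  · obtain ⟨N, G, hG'⟩ := hG p
    obtain ⟨r, hr⟩ := pderiv_nilp (k a) G
    have : ∀ r : ℕ, F ^ N * (D a)^[r] p = F ^ (r * n a) * aeval Y ((pderiv (k a))^[r] G) := by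
      intro r
      induction r with
      | zero => simpa using hG'
      | succ r ih =>
        rw [Function.iterate_succ_apply', Function.iterate_succ_apply', ← hDN, ih, hDN, hev]
        ring
    have h1 := this r
    rw [hr, map_zero, mul_zero] at h1
    exact ⟨r, (mul_eq_zero.mp h1).resolve_left (pow_ne_zero _ hF0)⟩
  · classical
    rw [Fintype.linearIndependent_iff]
    intro g hg b
    have h1 : (∑ a, g a • D a) (Y (k b)) = ∑ a, g a * D a (Y (k b)) := by
      change Derivation.coeFnAddMonoidHom (∑ a, g a • D a) (Y (k b)) = _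
      rw [map_sum, Finset.sum_apply]
      rfl
    rw [hg, Finset.sum_eq_single b, hD, if_pos rfl] at h1
    · exact (mul_eq_zero.mp h1.symm).resolve_right (pow_ne_zero _ hF0)
    · intro a _ hab
      rw [hD, if_neg (fun h => hab (hk h).symm), mul_zero]
    · simp
  · induction hp using Algebra.adjoin_induction with
    | mem x hx => rw [Set.mem_singleton_iff.mp hx, hDF]
    | algebraMap r => exact Derivation.map_algebraMap _ _
    | add x y _ _ hx hy => rw [map_add, hx, hy, add_zero]
    | mul x y _ _ hx hy => rw [Derivation.leibniz, hx, hy]; simp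
  · refine not_coord pt g (fun i => ?_) j
    have hp := hker g hg
    clear hg
    induction hp using Algebra.adjoin_induction with
    | mem x hx => rw [Set.mem_singleton_iff.mp hx, hc]
    | algebraMap r => rw [Derivation.map_algebraMap, map_zero]
    | add x y _ _ hx hy => rw [map_add, map_add, hx, hy, add_zero]
    | mul x y _ _ hx hy => simp [Derivation.leibniz, hx, hy]

section ext
variable (m : ℕ)

abbrev Am := MvPolynomial (Fin (4 + m)) ℂ

noncomputable abbrev up : R →ₐ[ℂ] Am m := rename (Fin.castAdd m)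

noncomputable def extD (Δ : Derivation ℂ R R) : Derivation ℂ (Am m) (Am m) :=
  mkDerivation ℂ (Fin.addCases (fun i => up m (Δ (X i))) fun _ => 0)

lemma extD_up (Δ : Derivation ℂ R R) (f : R) : extD m Δ (up m f) = up m (Δ f) := by
  induction f using MvPolynomial.induction_on with
  | C c => rw [algHom_C, Derivation.map_algebraMap, derivation_C, map_zero]
  | add p q hp hq => simp only [map_add, hp, hq]
  | mul_X p l hp =>
    have : extD m Δ (X (Fin.castAdd m l)) = up m (Δ (X l)) := by simp [extD]
    simp only [map_mul, Derivation.leibniz, smul_eq_mul, map_add, hp, rename_X, this]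

lemma extD_X (Δ : Derivation ℂ R R) (j : Fin m) : extD m Δ (X (Fin.natAdd 4 j)) = 0 := by
  simp [extD]

lemma cast_ne_nat (i : Fin 4) (j : Fin m) : Fin.castAdd m i ≠ Fin.natAdd 4 j := by
  intro h
  have := congrArg Fin.val h
  simp only [Fin.val_castAdd, Fin.val_natAdd] at this
  omega

lemma pderiv_up (j : Fin m) (f : R) : pderiv (Fin.natAdd 4 j) (up m f) = 0 := by
  induction f using MvPolynomial.induction_on with
  | C c => rw [algHom_C, Derivation.map_algebraMap]
  | add p q hp hq => simp only [map_add, hp, hq, add_zero]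
  | mul_X p l hp =>
    simp only [map_mul, Derivation.leibniz, smul_eq_mul, hp, rename_X,
      pderiv_X_of_ne (cast_ne_nat m l j)]
    simp

end ext

theorem family {y : Fin 4 → R} (hy : Gen y) (p : R →ₐ[ℂ] L) (hp : ∀ i, p (y i) = xL i)
    (pt : Fin 4 → ℂ) (h0 : eval pt (y 1) = 0) (hc : ∀ i, eval pt (pderiv i (y 1)) = 0) (m : ℕ) :
    ∃ D : Fin 3 ⊕ Fin m → Derivation ℂ (Am m) (Am m),
      (∀ i : Fin m, D (Sum.inr i) = pderiv (Fin.natAdd 4 i)) ∧
      (∀ a b p, D a (D b p) = D b (D a p)) ∧ (∀ a p, ∃ k : ℕ, (D a)^[k] p = 0) ∧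
      LinearIndependent (Am m) D ∧
      (∀ p, (∀ a, D a p = 0) ↔ p ∈ Algebra.adjoin ℂ {up m (y 1)}) ∧
      ∀ g, (∀ a, D a g = 0) → ¬ ∃ τ : Am m ≃ₐ[ℂ] Am m, τ g = X (Fin.castAdd m 0) := by
  obtain ⟨N, hN⟩ := exists_derivs hy p hp
  let s : Fin 3 → Fin 4 := Fin.succAbove 1
  choose Δ hΔ using fun a : Fin 3 => hN (s a) (Fin.succAbove_ne 1 a)
  let Y : Fin (4 + m) → Am m := Fin.addCases (fun i => up m (y i)) fun j => X (Fin.natAdd 4 j)
  have hY1 : ∀ i, Y (Fin.castAdd m i) = up m (y i) := fun i => by simp [Y]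
  have hY2 : ∀ j, Y (Fin.natAdd 4 j) = X (Fin.natAdd 4 j) := fun j => by simp [Y]
  have hup : ∀ G : R, aeval Y (up m G) = up m (aeval y G) := by
    intro G
    have : (aeval Y).comp (up m) = (up m).comp (aeval y) := by ext1 i; simp [hY1]
    exact DFunLike.congr_fun this G
  refine ⟨Sum.elim (fun a => extD m (Δ a)) fun j => pderiv (Fin.natAdd 4 j), fun _ => rfl, ?_⟩
  rw [← hY1]
  refine abstract_family Y (Fin.castAdd m 1)
    (Sum.elim (fun a => Fin.castAdd m (s a)) fun j => Fin.natAdd 4 j) ?_ ?_ ?_ _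
    (Sum.elim (fun _ => N) fun _ => 0) ?_ ?_ ?_ (Fin.addCases pt fun _ => 0) ?_ ?_ _
  · rintro (a | a) (b | b) h
    · exact congrArg Sum.inl (Fin.succAbove_right_injective (Fin.castAdd_injective _ _ h))
    · exact absurd h (cast_ne_nat m _ _)
    · exact absurd h.symm (cast_ne_nat m _ _)
    · exact congrArg Sum.inr (Fin.natAdd_injective _ _ h)
  · intro l hl
    induction l using Fin.addCases with
    | left i =>
      obtain ⟨a, ha⟩ := Fin.exists_succAbove_eq (x := i) (y := 1) (fun h => hl (by rw [h]))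
      exact ⟨Sum.inl a, congrArg (Fin.castAdd m) ha⟩
    | right j => exact ⟨Sum.inr j, rfl⟩
  · rintro (a | a) h
    · exact Fin.succAbove_ne 1 a (Fin.castAdd_injective _ _ h)
    · exact cast_ne_nat m _ _ h.symm
  · rintro (a | a) l
    · induction l using Fin.addCases with
      | left i =>
        simp only [Sum.elim_inl, hY1, extD_up, hΔ, (Fin.castAdd_injective _ _).eq_iff]
        split_ifs <;> simp
      | right j =>
        simp only [Sum.elim_inl, hY2, extD_X]
        exact (if_neg (cast_ne_nat m _ _).symm).symm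
    · induction l using Fin.addCases with
      | left i =>
        simp only [Sum.elim_inr, hY1, pderiv_up]
        exact (if_neg (cast_ne_nat m _ _)).symm
      | right j =>
        simp only [Sum.elim_inr, hY2, pow_zero]
        split_ifs with h
        · rw [h, pderiv_X_self]
        · exact pderiv_X_of_ne h
  · have h1 : Y (Fin.castAdd m 1) ∈ (aeval Y : Am m →ₐ[ℂ] Am m).range := ⟨X _, aeval_X _ _⟩
    have : ∀ f, f ∈ sat (Y (Fin.castAdd m 1)) _ h1 := by
      intro f
      induction f using MvPolynomial.induction_on with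
      | C c => exact Subalgebra.algebraMap_mem _ c
      | add p q hp hq => exact Subalgebra.add_mem _ hp hq
      | mul_X p l hp =>
        refine Subalgebra.mul_mem _ hp ?_
        induction l using Fin.addCases with
        | left i =>
          obtain ⟨n, G, hG⟩ := hy (X i)
          refine ⟨n, up m G, ?_⟩
          change aeval Y (up m G) = _
          rw [hup, ← hG, hY1, map_mul, map_pow, rename_X]
        | right j => exact mem_sat_of_mem ⟨X (Fin.natAdd 4 j), by simp [hY2]⟩
    intro f
    obtain ⟨n, G, hG⟩ := this f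
    exact ⟨n, G, hG.symm⟩
  · let KA := FractionRing (Am m)
    let g : R →ₐ[ℂ] KA := (IsScalarTower.toAlgHom ℂ (Am m) KA).comp (up m)
    have hg : Function.Injective g :=
      (IsFractionRing.injective (Am m) KA).comp (rename_injective _ (Fin.castAdd_injective _ _))
    let j : K →ₐ[ℂ] KA := IsFractionRing.liftAlgHom hg
    have hj : ∀ f : R, j (algebraMap R K f) = g f := fun f => IsFractionRing.lift_algebraMap hg f
    let P : Am m →ₐ[ℂ] KA := aeval (Fin.addCases (fun i => j (jK (p (X i))))
      fun k => algebraMap (Am m) KA (X (Fin.natAdd 4 k)))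
    have hP : ∀ f, P (up m f) = j (jK (p f)) := by
      intro f
      have : P.comp (up m) = j.comp (jK.comp p) := by ext1 i; simp [P]
      exact DFunLike.congr_fun this f
    have h1 : P.comp (aeval Y) = IsScalarTower.toAlgHom ℂ (Am m) KA := by
      ext1 l
      induction l using Fin.addCases with
      | left i =>
        rw [AlgHom.comp_apply, aeval_X, hY1, hP, hp, jK_xL, hj]
        simp [g]
      | right k =>
        rw [AlgHom.comp_apply, aeval_X, hY2]
        simp [P]
    intro G H h
    apply IsFractionRing.injective (Am m) KA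
    have h2 := DFunLike.congr_fun h1 G
    have h3 := DFunLike.congr_fun h1 H
    simp only [AlgHom.comp_apply, IsScalarTower.coe_toAlgHom'] at h2 h3
    rw [← h2, ← h3, h]
  · rw [hY1, eval_rename, ← h0]
    congr 2
    funext i; simp
  · intro l
    rw [hY1]
    induction l using Fin.addCases with
    | left i =>
      rw [pderiv_rename (Fin.castAdd_injective _ _), eval_rename, ← hc i]
      congr 2
      funext i; simp
    | right j => rw [pderiv_up, map_zero]

end Crest.Agent.R268
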