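import Crest.Agent.R256.Link
import Crest.Agent.R256.NonIso

set_option autoImplicit false

namespace Crest.Agent.R268

open MvPolynomial Crest.Agent.R256

/-- `y 1` is the function, `y 0, y 2, y 3` are coordinates once `y 1` is inverted. -/
def Gen (y : Fin 4 → R) : Prop := ∀ f : R, ∃ (N : ℕ) (G : R), y 1 ^ N * f = aeval y G

lemma gen_of_X {y : Fin 4 → R} (h : ∀ i, ∃ (N : ℕ) (G : R), y 1 ^ N * X i = aeval y G) : Gen y := by
  have h1 : y 1 ∈ (aeval y : R →ₐ[ℂ] R).range := ⟨X 1, by simp⟩
  have : ∀ f, f ∈ sat (y 1) _ h1 := by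
    intro f
    induction f using MvPolynomial.induction_on with
    | C c => exact Subalgebra.algebraMap_mem _ c
    | add p q hp hq => exact Subalgebra.add_mem _ hp hq
    | mul_X p i hp =>
      obtain ⟨N, G, hG⟩ := h i
      exact Subalgebra.mul_mem _ hp ⟨N, G, hG.symm⟩
  intro f
  obtain ⟨N, G, hG⟩ := this f
  exact ⟨N, G, hG.symm⟩

lemma fibre_iso {y : Fin 4 → R} (hy : Gen y) {η : ℂ} (hη : η ≠ 0)
    (p : R →ₐ[ℂ] MvPolynomial (Fin 3) ℂ) (h0 : p (y 0) = X 0) (h1 : p (y 1) = C η)
    (h2 : p (y 2) = X 1) (h3 : p (y 3) = X 2) :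
    Nonempty ((R ⧸ Ideal.span {y 1 - C η}) ≃ₐ[ℂ] MvPolynomial (Fin 3) ℂ) := by
  let e : MvPolynomial (Fin 3) ℂ →ₐ[ℂ] R := aeval ![y 0, y 2, y 3]
  have hpe : ∀ G, p (e G) = G := by
    intro G
    have : p.comp e = AlgHom.id ℂ _ := by
      ext1 i; fin_cases i <;> simp [e, h0, h2, h3]
    exact DFunLike.congr_fun this G
  have hsurj : Function.Surjective p := fun G => ⟨e G, hpe G⟩
  have hker : RingHom.ker p = Ideal.span {y 1 - C η} := by
    apply le_antisymm
    · intro f hf
      rw [RingHom.mem_ker] at hf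
      obtain ⟨N, G, hG⟩ := hy f
      let q := Ideal.Quotient.mkₐ ℂ (Ideal.span {y 1 - C η})
      have hq : q (y 1) = q (C η) := Ideal.Quotient.eq.mpr (Ideal.mem_span_singleton_self _)
      have h4 : q.comp (aeval y) = q.comp (e.comp (p.comp (aeval y))) := by
        ext1 i
        fin_cases i
        · simp [e, h0]
        · simp only [Fin.mk_one, AlgHom.comp_apply, aeval_X, h1, algHom_C]
          exact hq
        · simp [e, h2]
        · simp [e, h3]
      have h5 := DFunLike.congr_fun h4 G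
      simp only [AlgHom.comp_apply] at h5
      rw [← hG, map_mul p, hf, mul_zero, map_zero, map_zero, map_mul, map_pow, hq] at h5
      have hu : IsUnit (q (C η) ^ N) :=
        (((isUnit_iff_ne_zero.mpr hη).map C).map q).pow N
      exact Ideal.Quotient.eq_zero_iff_mem.mp ((hu.mul_right_eq_zero).mp h5)
    · rw [Ideal.span_singleton_le_iff_mem, RingHom.mem_ker, map_sub, h1, algHom_C]
      exact sub_self _
  exact ⟨(Ideal.quotientEquivAlgOfEq ℂ hker.symm).trans (Ideal.quotientKerAlgEquivOfSurjective hsurj)⟩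

lemma theta_inc (j : Fin 4) (G : R) : theta j (inc G) = xL j * inc (pderiv j G) := by
  induction G using MvPolynomial.induction_on with
  | C c => rw [algHom_C, Derivation.map_algebraMap]; simp
  | add p q hp hq => simp only [map_add, hp, hq, mul_add]
  | mul_X p i hp =>
    simp only [map_mul, inc_X, Derivation.leibniz, hp, theta_xL, smul_eq_mul, map_add, pderiv_X]
    by_cases h : j = i
    · subst h; simp; ring
    · rw [if_neg h, Pi.single_eq_of_ne' h]; simp; ring

lemma pi_aeval {y : Fin 4 → R} (p : R →ₐ[ℂ] L) (hp : ∀ i, p (y i) = xL i) (G : R) :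
    p (aeval y G) = inc G := by
  have : p.comp (aeval y) = inc := by ext1 i; simp [hp]
  exact DFunLike.congr_fun this G

lemma pi_injective {y : Fin 4 → R} (hy : Gen y) (p : R →ₐ[ℂ] L) (hp : ∀ i, p (y i) = xL i) :
    Function.Injective p := by
  rw [injective_iff_map_eq_zero]
  intro f hf
  obtain ⟨N, G, hG⟩ := hy f
  have h1 : G = 0 := inc_injective (by rw [← pi_aeval p hp, ← hG, map_mul, hf, mul_zero, map_zero])
  rw [h1, map_zero] at hG
  refine (mul_eq_zero.mp hG).resolve_left (pow_ne_zero _ fun h => xL_ne_zero 1 ?_)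
  rw [← hp, h, map_zero]

lemma exists_derivs {y : Fin 4 → R} (hy : Gen y) (p : R →ₐ[ℂ] L) (hp : ∀ i, p (y i) = xL i) :
    ∃ N : ℕ, ∀ j, j ≠ 1 → ∃ Δ : Derivation ℂ R R, ∀ l, Δ (y l) = if l = j then y 1 ^ N else 0 := by
  have hy' : ∀ i : Fin 4, ∃ (N : ℕ) (G : R), y 1 ^ N * X i = aeval y G := fun i => hy (X i)
  choose n G hG using hy'
  let N := ∑ i, n i
  have hN : ∀ i : Fin 4, ∃ G' : R, y 1 ^ N * X i = aeval y G' := by
    intro i
    obtain ⟨k, hk⟩ := Nat.exists_eq_add_of_le (Finset.single_le_sum (f := n)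
      (fun _ _ => Nat.zero_le _) (Finset.mem_univ i))
    refine ⟨X 1 ^ k * G i, ?_⟩
    rw [map_mul, map_pow, aeval_X, ← hG, show N = n i + k from hk]
    ring
  choose G' hG' using hN
  refine ⟨N, fun j hj => ?_⟩
  let Δ : Derivation ℂ R R := mkDerivation ℂ fun i => aeval y (pderiv j (G' i))
  have key : ∀ f, xL j * p (Δ f) = xL 1 ^ N * theta j (p f) := by
    intro f
    induction f using MvPolynomial.induction_on with
    | C c =>
      rw [algHom_C, Derivation.map_algebraMap, derivation_C]; simp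
    | add f g hf hg => simp only [map_add, mul_add, hf, hg]
    | mul_X f i hf =>
      have h1 : xL j * p (Δ (X i)) = xL 1 ^ N * theta j (p (X i)) := by
        have h2 := congrArg (fun z => theta j (p z)) (hG' i)
        simp only [map_mul, map_pow, hp, pi_aeval p hp, theta_inc, Derivation.leibniz,
          Derivation.leibniz_pow, theta_xL, if_neg hj, smul_zero, add_zero, smul_eq_mul, mul_zero] at h2
        rw [h2]
        simp only [Δ, mkDerivation_X, pi_aeval p hp]
      simp only [map_mul, Derivation.leibniz, smul_eq_mul, map_add]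
      linear_combination p f * h1 + p (X i) * hf
  refine ⟨Δ, fun l => pi_injective hy p hp (mul_left_cancel₀ (xL_ne_zero j) ?_)⟩
  rw [key, hp, theta_xL]
  by_cases h : l = j
  · subst h; simp [hp, mul_comm]
  · simp [h, Ne.symm h]

lemma eval_derivation {σ : Type*} [Fintype σ] (δ : Derivation ℂ (MvPolynomial σ ℂ) (MvPolynomial σ ℂ))
    (pt : σ → ℂ) (g : MvPolynomial σ ℂ) (hg : ∀ i, eval pt (pderiv i g) = 0) :
    eval pt (δ g) = 0 := by
  classical
  have key : ∀ f : MvPolynomial σ ℂ, δ f = ∑ i, δ (X i) * pderiv i f := by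
    intro f
    induction f using MvPolynomial.induction_on with
    | C c => simp [derivation_C]
    | add p q hp hq => simp only [map_add, hp, hq, mul_add, Finset.sum_add_distrib]
    | mul_X p i hp =>
      have h1 : ∑ j, δ (X j) * (p * pderiv j (X i : MvPolynomial σ ℂ)) = p * δ (X i) := by
        rw [Finset.sum_eq_single i]
        · simp [mul_comm]
        · intro j _ hj
          rw [pderiv_X_of_ne hj.symm]; simp
        · simp
      simp only [Derivation.leibniz, smul_eq_mul, mul_add, Finset.sum_add_distrib]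
      rw [h1, hp, Finset.mul_sum, add_right_inj]
      exact Finset.sum_congr rfl fun j _ => by ring
  rw [key g, map_sum]
  simp [hg]

lemma not_coord {σ : Type*} [Fintype σ] (pt : σ → ℂ) (g : MvPolynomial σ ℂ)
    (hg : ∀ i, eval pt (pderiv i g) = 0) (k : σ) :
    ¬ ∃ τ : MvPolynomial σ ℂ ≃ₐ[ℂ] MvPolynomial σ ℂ, τ g = X k := by
  rintro ⟨τ, hτ⟩
  let δ : Derivation ℂ (MvPolynomial σ ℂ) (MvPolynomial σ ℂ) :=
    Derivation.mk' (τ.symm.toLinearMap ∘ₗ (pderiv k : Derivation ℂ _ _).toLinearMap ∘ₗ τ.toLinearMap)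
      (by intro a b; simp [Derivation.leibniz])
  have h1 : δ g = 1 := by
    change τ.symm (pderiv k (τ g)) = 1
    rw [hτ, pderiv_X_self, map_one]
  have := eval_derivation δ pt g hg
  rw [h1] at this
  simp at this

end Crest.Agent.R268
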