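import Crest.Agent.R268.Top

set_option autoImplicit false

namespace Crest.Agent.R268

open Polynomial Crest.Agent.R256

lemma const_of_mul {P Q : L[X]} {c : L} (hc : c ≠ 0) (h : P * Q = C c) : P.coeff 1 = 0 := by
  have := natDegree_le_of_dvd ⟨Q, h.symm⟩ (C_ne_zero.mpr hc)
  rw [natDegree_C] at this
  exact coeff_eq_zero_of_natDegree_lt (by omega)

theorem noncoord (φ : R →ₐ[ℂ] L) (hinj : Function.Injective φ) (H0 : ∀ i, ∃ f, φ f = xL i)
    (H1 : ∀ f, ∃ (N : ℕ) (G : R), xL 1 ^ N * φ f = inc G)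
    (H2 : ∀ (f : R) (n : ℕ) (G : R), xL 1 ^ n * φ f = inc G → 0 < n → qq ∣ zz G)
    (H3 : φ (MvPolynomial.X 0) = xL 1)
    (H4 : ∃ f, ∀ G, φ f ≠ inc G) : False := by
  classical
  obtain ⟨j, hj⟩ : ∃ j, ∀ G, φ (MvPolynomial.X j) ≠ inc G := by
    by_contra hcon
    push Not at hcon
    obtain ⟨f, hf⟩ := H4
    choose G hG using hcon
    have : φ = inc.comp (MvPolynomial.aeval G) := by
      ext1 i; simp [hG]
    exact hf (MvPolynomial.aeval G f) (by rw [this]; rfl)
  obtain ⟨i, hi0, hij⟩ : ∃ i : Fin 4, i ≠ 0 ∧ i ≠ j := by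
    by_cases h : j = 1
    · exact ⟨2, by decide, by rw [h]; decide⟩
    · exact ⟨1, by decide, Ne.symm h⟩
  choose x hx using H0
  set d : Derivation ℂ R R := MvPolynomial.pderiv i with hd
  set w : Fin 4 → L := fun r => φ (d (x r)) * xI r with hw
  have hwx : ∀ r, Dsum w (xL r) = φ (d (x r)) := by
    intro r; rw [Dsum_xL, hw, mul_assoc, mul_comm (xI r), xL_mul_xI, mul_one]
  have hφx : ∀ G : R, φ (MvPolynomial.aeval x G) = inc G := by
    intro G
    have : φ.comp (MvPolynomial.aeval x) = inc := by ext1 i; simp [hx]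
    exact DFunLike.congr_fun this G
  have hD0 : ∀ G : R, Dsum w (inc G) = φ (d (MvPolynomial.aeval x G)) := by
    intro G
    induction G using MvPolynomial.induction_on with
    | C c =>
      rw [MvPolynomial.algHom_C, MvPolynomial.algHom_C, Derivation.map_algebraMap,
        Derivation.map_algebraMap, map_zero]
    | add p q hp hq => simp only [map_add, hp, hq]
    | mul_X p r hp =>
      simp only [map_mul, inc_X, MvPolynomial.aeval_X, Derivation.leibniz, smul_eq_mul, map_add,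
        hp, hwx, hφx, hx]
  have hD : ∀ f, Dsum w (φ f) = φ (d f) := by
    intro f
    obtain ⟨N, G, hG⟩ := H1 f
    have h1 : x 1 ^ N * f = MvPolynomial.aeval x G := hinj (by rw [map_mul, map_pow, hx, hG, hφx])
    have h2 := hD0 G
    rw [← h1, ← hG] at h2
    simp only [Derivation.leibniz, Derivation.leibniz_pow, smul_eq_mul, map_add, map_mul, map_pow,
      hx, hwx, nsmul_eq_mul, map_natCast, add_left_inj] at h2
    exact mul_left_cancel₀ (pow_ne_zero N (xL_ne_zero 1)) h2
  have hwne : ∃ r, w r ≠ 0 := by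
    by_contra hcon
    push Not at hcon
    have := hD (MvPolynomial.X i)
    rw [Dsum_apply, hcon, hcon, hcon, hcon, hd, MvPolynomial.pderiv_X_self] at this
    simp at this
  obtain ⟨k₁, k₂, η, hη, hηne⟩ := exists_tp w hwne
  set D := Dsum η with hDdef
  have hstep : ∀ (n : ℕ) {p q : ℤ} {f : R} {h : L}, TR p q (φ f) h →
      TR (p + n * k₁) (q + n * k₂) (φ (d^[n] f)) (D^[n] h) := by
    intro n p q f h hf
    induction n with
    | zero => simpa using hf
    | succ n ih =>
      rw [Function.iterate_succ_apply', Function.iterate_succ_apply', ← hD]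
      exact (TR.dsum hη ih).cast (by push_cast; ring) (by push_cast; ring)
  have hnil : ∀ {p q : ℤ} {f : R} {h : L}, TR p q (φ f) h → ∃ N, D^[N] h = 0 := by
    intro p q f h hf
    obtain ⟨N, hN⟩ := pderiv_nilp i f
    have := hstep N hf
    rw [hd, hN, map_zero] at this
    exact ⟨N, this.eq_zero⟩
  have htop : ∀ r, ∃ p q, TR p q (φ (x r)) (xL r) := by
    intro r
    rw [hx]
    fin_cases r
    exacts [⟨_, _, hm_xL0.topRel⟩, ⟨_, _, hm_xL1.topRel⟩, ⟨_, _, hm_xL2.topRel⟩,
      ⟨_, _, hm_xL3.topRel⟩]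
  have hPex : ∀ r, ∃ P, IsExp D (xL r) P := by
    intro r
    obtain ⟨p, q, h⟩ := htop r
    obtain ⟨N, hN⟩ := hnil h
    exact exists_isExp hN
  choose P hP using hPex
  have hexp : ∀ H : R, IsExp D (inc H) (MvPolynomial.aeval P H) :=
    fun H => IsExp.aeval _ _ hP H
  have z1 : η 1 = 0 := by
    have h1 : x 1 = MvPolynomial.X 0 := hinj (by rw [hx, H3])
    have h2 : w 1 = 0 := by
      simp only [hw, h1, hd, MvPolynomial.pderiv_X_of_ne hi0.symm, map_zero, zero_mul]
    have := hη 1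
    rw [h2] at this
    exact this.eq_zero
  -- the kernel element
  obtain ⟨n, g, G, hg, hDg, hgG⟩ : ∃ (n : ℕ) (g : L) (G : R), g ≠ 0 ∧ D g = 0 ∧
      xL 1 ^ n * g = xL 0 * xL 2 * xL 3 * inc G := by
    have hex := H1 (MvPolynomial.X j)
    obtain ⟨G, hG⟩ := Nat.find_spec hex
    have hmin := fun m (hm : m < Nat.find hex) => Nat.find_min hex hm
    set n := Nat.find hex
    have hn : 0 < n := by
      rcases Nat.eq_zero_or_pos n with h | h
      · rw [h, pow_zero, one_mul] at hG; exact absurd hG (hj G)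
      · exact h
    obtain ⟨H₁, hH₁⟩ := exists_zz G
    have hz : zz G ≠ 0 := by
      intro h0
      refine hmin (n - 1) (by omega) ⟨H₁, mul_left_cancel₀ (xL_ne_zero 1) ?_⟩
      rw [← mul_assoc, ← pow_succ', Nat.sub_add_cancel hn, hG, hH₁, h0, zero_add, map_mul, inc_X]
    obtain ⟨H, hH⟩ := H2 _ n G hG hn
    have hH' : zz G = qq * zz H := by
      rw [← zz_zz, hH, map_mul]
      congr 1
      simp [qq, zz_X]
    have hzH : inc (zz H) ≠ 0 := by
      intro h0
      have : zz H = 0 := inc_injective (by rw [h0, map_zero])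
      rw [this, mul_zero] at hH'
      exact hz hH'
    obtain ⟨p₀, q₀, e, he, ⟨_, hene⟩⟩ := exists_tp (fun _ : Unit => inc (zz H)) ⟨(), hzH⟩
    have he' := he ()
    have hs1 := he'.supp (supp_inc_zz H)
    obtain ⟨G'', hG''⟩ := exists_inc (he'.supp (supp_inc _))
    have hp0 : p₀ = 0 := by
      obtain ⟨m, hm⟩ := Finsupp.support_nonempty_iff.mpr (show (e ()).coeff ≠ 0 by simpa using hene)
      have hm' := Finsupp.mem_support_iff.mp hm
      have := hs1 m hm'
      have := (he'.1 m hm').1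
      simp only [d1] at this
      omega
    subst hp0
    have t1 := top_qq.mul he'
    have t2 : TR (0 + 0) (5 + q₀) (xL 1 * inc H₁) 0 := by
      refine ⟨Supp.zero _, ?_⟩
      rw [sub_zero]
      refine Supp.mul hm_xL1 (supp_inc H₁) fun m m' hm hm' => ?_
      have := hm' 1
      rw [d1_add]
      simp only [d1] at hm ⊢
      omega
    have t3 := (hm_xI1.topRel.pow n).mul (t1.add t2)
    have e3 : xI 1 ^ n * (inc qq * inc (zz H) + xL 1 * inc H₁) = φ (MvPolynomial.X j) := by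
      rw [← map_mul, ← hH', ← inc_X, ← map_mul, ← map_add, ← hH₁, ← hG, ← mul_assoc,
        ← mul_pow, mul_comm (xI 1), xL_mul_xI, one_pow, one_mul]
    rw [e3, add_zero (_ * e ())] at t3
    have t4 := hstep 1 t3
    rw [Function.iterate_one, Function.iterate_one, hd, MvPolynomial.pderiv_X_of_ne hij.symm,
      map_zero] at t4
    refine ⟨n, _, G'', ?_, t4.eq_zero, ?_⟩
    · exact mul_ne_zero (pow_ne_zero _ (right_ne_zero_of_mul_eq_one (xL_mul_xI 1)))
        (mul_ne_zero (mul_ne_zero (mul_ne_zero (xL_ne_zero 0) (xL_ne_zero 2)) (xL_ne_zero 3)) hene)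
    · rw [← mul_assoc, ← mul_pow, xL_mul_xI, one_pow, one_mul, hG'']
  have hξ : D (xL 1) = 0 := by rw [hDdef, Dsum_xL, z1, zero_mul]
  have hc : xL 1 ^ n * g ≠ 0 := mul_ne_zero (pow_ne_zero n (xL_ne_zero 1)) hg
  have hDc : D (xL 1 ^ n * g) = 0 := by
    rw [Derivation.leibniz, Derivation.leibniz_pow, hξ, hDg]; simp
  have key : P 0 * P 2 * P 3 * MvPolynomial.aeval P G = C (xL 1 ^ n * g) :=
    ((((hP 0).mul (hP 2)).mul (hP 3)).mul (hexp G)).unique (hgG ▸ IsExp.const hDc)
  have zz : ∀ r, (P r).coeff 1 = 0 → η r = 0 := by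
    intro r hr
    rw [(hP r).coeff_one, Dsum_xL] at hr
    exact (mul_eq_zero.mp hr).resolve_right (xL_ne_zero _)
  obtain ⟨r, hr⟩ := hηne
  fin_cases r
  · exact hr (zz 0 (const_of_mul (Q := P 2 * P 3 * MvPolynomial.aeval P G) hc (by rw [← key]; ring)))
  · exact hr z1
  · exact hr (zz 2 (const_of_mul (Q := P 0 * P 3 * MvPolynomial.aeval P G) hc (by rw [← key]; ring)))
  · exact hr (zz 3 (const_of_mul (Q := P 0 * P 2 * MvPolynomial.aeval P G) hc (by rw [← key]; ring)))

lemma prime_qq : Prime qq := by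
  rw [← neg_neg qq]
  refine Prime.neg <| prime_quad (-(MvPolynomial.X 1 * MvPolynomial.X 2)) (MvPolynomial.X 1 ^ 4) ?_ _ ?_
  · intro r hr
    have := congrArg (MvPolynomial.aeval (![1, 1, X] : Fin 3 → ℂ[X])) hr
    simp only [map_add, map_mul, map_pow, map_neg, MvPolynomial.aeval_X, map_zero,
      Matrix.cons_val] at this
    generalize MvPolynomial.aeval (![1, 1, X] : Fin 3 → ℂ[X]) r = s at this
    have h1 : s * (X - s) = 1 := by linear_combination -this
    have h2 := natDegree_eq_zero_of_isUnit (IsUnit.of_mul_eq_one _ h1)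
    have h3 := natDegree_eq_zero_of_isUnit (IsUnit.of_mul_eq_one_right _ h1)
    have h4 := natDegree_add_le s (X - s)
    rw [h2, h3, add_sub_cancel, natDegree_X] at h4
    simp at h4
  · simp only [qq, map_neg, map_mul, map_pow, map_sub, fse0, fse2, fse3]
    ring

instance : (Ideal.span {qq}).IsPrime := (Ideal.span_singleton_prime prime_qq.ne_zero).mpr prime_qq

abbrev FF := FractionRing (R ⧸ Ideal.span {qq})

noncomputable def cn : R →ₐ[ℂ] FF :=
  (IsScalarTower.toAlgHom ℂ (R ⧸ Ideal.span {qq}) FF).comp (Ideal.Quotient.mkₐ ℂ _)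

lemma cn_eq_zero {G : R} : cn G = 0 ↔ qq ∣ G := by
  rw [← Ideal.mem_span_singleton, ← Ideal.Quotient.eq_zero_iff_mem]
  simp [cn]

lemma dvd_zz {f G : R} {n : ℕ} (hn : 0 < n) (h : yS 1 ^ n * f = MvPolynomial.aeval yS G) :
    qq ∣ zz G := by
  have hb : cn ra ≠ 0 := fun h =>
    not_dvd_of_eval ![1, 0, 1, 2] (by simp [qq]; norm_num) (by simp) (cn_eq_zero.mp h)
  have ha : cn rb ≠ 0 := fun h =>
    not_dvd_of_eval ![1, 0, 1, 2] (by simp [qq]; norm_num) (by simp) (cn_eq_zero.mp h)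
  have hq : cn ra * cn rb * cn rc - cn ra ^ 2 - cn rb ^ 4 = 0 := by
    have : cn qq = 0 := cn_eq_zero.mpr dvd_rfl
    simpa only [qq, map_sub, map_mul, map_pow] using this
  let κ : P3 →ₐ[ℂ] FF := MvPolynomial.aeval ![cn ra / cn rb, cn rb ^ 3 / cn ra ^ 2, 0]
  have key : κ.comp (thS.comp (MvPolynomial.aeval yS)) = cn.comp zz := by
    ext1 i
    simp only [AlgHom.comp_apply, MvPolynomial.aeval_X, thS_yS, zz_X]
    fin_cases i
    · simp [κ]; field_simp
    · simp
    · simp [κ]; field_simp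
    · simp [κ]; field_simp; linear_combination -hq
  have h1 := DFunLike.congr_fun key G
  simp only [AlgHom.comp_apply] at h1
  rw [← cn_eq_zero, ← h1, ← h, map_mul, map_pow, thS_yS]
  simp [hn.ne']

theorem not_coord_yS : ¬ ∃ τ : R ≃ₐ[ℂ] R, τ (yS 1) = MvPolynomial.X 0 := by
  rintro ⟨τ, hτ⟩
  obtain ⟨p, hp⟩ := exists_piSL
  have hinj := pi_injective gen_yS p hp
  refine noncoord (p.comp (τ.symm : R →ₐ[ℂ] R)) (hinj.comp τ.symm.injective)
    (fun i => ⟨τ (yS i), by simp [hp]⟩) (fun f => ?_) (fun f n G h hn => ?_) ?_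
    ⟨τ (MvPolynomial.X 3), fun G h => ?_⟩
  · obtain ⟨N, G, hG⟩ := gen_yS (τ.symm f)
    exact ⟨N, G, by rw [← pi_aeval p hp, ← hG, map_mul, map_pow, hp]; rfl⟩
  · refine dvd_zz (f := τ.symm f) hn (hinj ?_)
    rw [pi_aeval p hp, ← h, map_mul, map_pow, hp]; rfl
  · rw [← hτ]; simp [hp]
  · have h1 : MvPolynomial.X 3 = MvPolynomial.aeval yS G := hinj (by
      rw [pi_aeval p hp, ← h]; simp)
    have key : (MvPolynomial.aeval (![0, 0, 0, 1] : Fin 4 → ℂ)).comp (MvPolynomial.aeval yS) =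
        (MvPolynomial.aeval (![0, 0, 0, 0] : Fin 4 → ℂ)).comp
          (MvPolynomial.aeval yS : R →ₐ[ℂ] R) := by
      ext1 i
      simp only [AlgHom.comp_apply, MvPolynomial.aeval_X, yS, map_fs]
      fin_cases i <;> simp [fs, L1, L2, NN]
    have h2 := DFunLike.congr_fun key G
    simp only [AlgHom.comp_apply] at h2
    rw [← h1] at h2
    simp at h2

end Crest.Agent.R268
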