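import Crest.Agent.R268.Frame

set_option autoImplicit false

namespace Crest.Agent.R268

open MvPolynomial Crest.Agent.R256

section
variable {S T : Type*} [CommRing S] [CommRing T]

def L1 (x u v w : S) : S := u ^ 2 * v + x * w
def L2 (x u v w : S) : S := u * L1 x u v w + x * v
def NN (x u v w : S) : S := L1 x u v w ^ 2 * w - 2 * u * v ^ 2 * L1 x u v w - x * v ^ 3

/-- the frame `(b, t, a, c)` -/
def fs (x u v w : S) : Fin 4 → S :=
  ![L2 x u v w, x - L1 x u v w * L2 x u v w, L1 x u v w,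
    u + 2 * L2 x u v w * v + L1 x u v w * NN x u v w]

lemma map_L1 {F : Type*} [FunLike F S T] [RingHomClass F S T] (φ : F) (x u v w : S) :
    φ (L1 x u v w) = L1 (φ x) (φ u) (φ v) (φ w) := by
  simp [L1]

lemma map_L2 {F : Type*} [FunLike F S T] [RingHomClass F S T] (φ : F) (x u v w : S) :
    φ (L2 x u v w) = L2 (φ x) (φ u) (φ v) (φ w) := by
  simp [L2, L1]

lemma map_fs {F : Type*} [FunLike F S T] [RingHomClass F S T] (φ : F) (x u v w : S) (i : Fin 4) :
    φ (fs x u v w i) = fs (φ x) (φ u) (φ v) (φ w) i := by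
  fin_cases i <;> simp [fs, map_L1, map_L2, NN, map_ofNat]

lemma x_mul_NN (x u v w : S) : x * NN x u v w = L1 x u v w ^ 3 - v * L2 x u v w ^ 2 := by
  simp only [NN, L2, L1]; ring

lemma fs_surj [IsDomain S] {t t' : S} (ht : t * t' = 1) (a b c : S) (hx0 : t + a * b ≠ 0) :
    ∃ x u v w, fs x u v w = ![b, t, a, c] := by
  obtain ⟨x, hx⟩ : ∃ x, x = t + a * b := ⟨_, rfl⟩
  rw [← hx] at hx0
  have ht' : (x - a * b) * t' = 1 := by rw [hx]; linear_combination ht
  obtain ⟨u, hu⟩ : ∃ u, u = t' ^ 2 * (x ^ 2 * c - 2 * x * b ^ 2 - x * a ^ 4 + a * b ^ 3) := ⟨_, rfl⟩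
  obtain ⟨v, hv⟩ : ∃ v, v = t' ^ 2 * (x * b - x * a * c + a ^ 5) := ⟨_, rfl⟩
  have e2 : u * a + x * v = b := by
    rw [hu, hv]
    linear_combination b * ((x - a * b) * t' + 1) * ht'
  have e3 : x * (c - u - 2 * b * v) = a * (a ^ 3 - v * b ^ 2) := by
    rw [hu, hv]
    linear_combination (a ^ 4 - x * c) * ((x - a * b) * t' + 1) * ht'
  obtain ⟨w, hw⟩ : ∃ w, w = t' ^ 3 * ((x ^ 2 - 3 * x * (a * b) + 3 * (a * b) ^ 2) * (a - u ^ 2 * v) -
    b ^ 3 * (c - u - 2 * b * v + 2 * u * v ^ 2 * a ^ 2 + a * x * v ^ 3)) := ⟨_, rfl⟩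
  have e4 : x * (c - u - 2 * b * v + 2 * u * v ^ 2 * a ^ 2 + a * x * v ^ 3) =
      a ^ 3 * (a - u ^ 2 * v) := by
    linear_combination e3 + a * v * (b + u * a + x * v) * e2
  have f1 : L1 x u v w = a := by
    rw [L1, hw]
    linear_combination (-t' ^ 3 * b ^ 3) * e4 +
      (a - u ^ 2 * v) * (((x - a * b) * t') ^ 2 + (x - a * b) * t' + 1) * ht'
  have f2 : L2 x u v w = b := by rw [L2, f1, e2]
  have f3 : u + 2 * b * v + a * NN x u v w = c := by
    refine mul_left_cancel₀ hx0 ?_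
    have := x_mul_NN x u v w
    rw [f1, f2] at this
    linear_combination a * this - e3
  refine ⟨x, u, v, w, ?_⟩
  rw [fs, f1, f2, f3, hx, add_sub_cancel_right]

lemma fs_gen [Algebra ℂ S] (x u v w : S) (E : Subalgebra ℂ S) (hE : ∀ i, fs x u v w i ∈ E)
    (hs : ∀ (n : ℕ) f, fs x u v w 1 ^ n * f ∈ E → f ∈ E) : x ∈ E ∧ u ∈ E ∧ v ∈ E ∧ w ∈ E := by
  have hb := hE 0
  have h1 := hE 1
  have ha := hE 2
  have hc := hE 3
  have e0 := x_mul_NN x u v w
  have e1 : L1 x u v w = u ^ 2 * v + x * w := rfl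
  have e2 : L2 x u v w = u * L1 x u v w + x * v := rfl
  have e3 : NN x u v w = L1 x u v w ^ 2 * w - 2 * u * v ^ 2 * L1 x u v w - x * v ^ 3 := rfl
  have e4 : x ^ 2 * (u + 2 * L2 x u v w * v + L1 x u v w * NN x u v w) =
      (x - L1 x u v w * L2 x u v w) ^ 2 * u + 2 * x * L2 x u v w ^ 2 + x * L1 x u v w ^ 4 -
        L1 x u v w * L2 x u v w ^ 3 := by
    have := x_mul_NN x u v w
    rw [e2] at this ⊢
    linear_combination x * L1 x u v w * this
  simp only [fs, Matrix.cons_val] at hb h1 ha hc hs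
  generalize L2 x u v w = b at *
  generalize L1 x u v w = a at *
  generalize NN x u v w = N at *
  generalize hM : u + 2 * b * v + a * N = c at hc e4
  have hx : x ∈ E := by simpa using E.add_mem h1 (E.mul_mem ha hb)
  have h2 := E.natCast_mem 2
  have h3 := E.natCast_mem 3
  simp only [Nat.cast_ofNat] at h2 h3
  have hu : u ∈ E := hs 2 _ (by
    have : (x - a * b) ^ 2 * u = x ^ 2 * c - 2 * x * b ^ 2 - x * a ^ 4 + a * b ^ 3 := by
      linear_combination -e4
    rw [this]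
    clear hs hE
    apply_rules [add_mem, sub_mem, mul_mem, pow_mem])
  have hv : v ∈ E := hs 2 _ (by
    have : (x - a * b) ^ 2 * v = x * b - x * a * c + a ^ 5 := by
      rw [← hM]
      linear_combination a ^ 2 * e0 - x * e2
    rw [this]
    clear hs hE
    apply_rules [add_mem, sub_mem, mul_mem, pow_mem])
  refine ⟨hx, hu, hv, hs 3 _ ?_⟩
  have : (x - a * b) ^ 3 * w = (x ^ 2 - 3 * x * (a * b) + 3 * (a * b) ^ 2) * (a - u ^ 2 * v) -
      b ^ 3 * (c - u - 2 * b * v + 2 * u * v ^ 2 * a ^ 2 + a * x * v ^ 3) := by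
    rw [← hM]
    linear_combination -(x ^ 2 - 3 * x * (a * b) + 3 * (a * b) ^ 2) * e1 + a * b ^ 3 * e3
  rw [this]
  clear hs hE
  apply_rules (maxDepth := 200) [add_mem, sub_mem, mul_mem, pow_mem]

/-! ### the zero fibre -/

def tv (m n w : S) : S := n + 2 * m ^ 2 * n ^ 3 - m ^ 3 * n ^ 2 * w
def th (m n w : S) : Fin 4 → S :=
  ![m ^ 5 * n ^ 2, m * (1 - m ^ 2 * n * tv m n w), tv m n w,
    w + 2 * m * n * (2 * n - m * w) * (tv m n w + n) - m * tv m n w ^ 3]

def im (x u v w : S) : S := u + L2 x u v w * v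
def in' (x u v w : S) : S := im x u v w * (1 - L1 x u v w * v) ^ 2 * v + L1 x u v w ^ 2 * w
def inn (x u v w : S) : S := (1 - L1 x u v w * v) ^ 2 * v + im x u v w * in' x u v w ^ 2 * w
def iw (m n v w : S) : S :=
  (1 + 2 * m ^ 2 * n * (v + n)) * (w + m * v ^ 3 - 4 * m * n ^ 2 * (v + n)) +
    4 * m * (v + n) ^ 2 * (n + 2 * m ^ 2 * n ^ 3 - v)
def io (x u v w : S) : Fin 3 → S :=
  ![im x u v w, inn x u v w, iw (im x u v w) (inn x u v w) v w]

lemma map_th {F : Type*} [FunLike F S T] [RingHomClass F S T] (φ : F) (m n w : S) (i : Fin 4) :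
    φ (th m n w i) = th (φ m) (φ n) (φ w) i := by
  fin_cases i <;> simp [th, tv, map_ofNat]

lemma map_io {F : Type*} [FunLike F S T] [RingHomClass F S T] (φ : F) (x u v w : S) (i : Fin 3) :
    φ (io x u v w i) = io (φ x) (φ u) (φ v) (φ w) i := by
  fin_cases i <;> simp [io, iw, inn, in', im, map_L1, map_L2, map_ofNat]

lemma th_E (m n w : S) :
    (1 - m ^ 2 * n * th m n w 2) ^ 2 * th m n w 2 + m ^ 3 * n ^ 2 * th m n w 3 = n := by
  simp only [th, Matrix.cons_val]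
  have h : m ^ 2 * n ^ 2 * (2 * n - m * w) = tv m n w - n := by rw [tv]; ring
  have h' : tv m n w + m ^ 3 * n ^ 2 * w - 2 * m ^ 2 * n ^ 3 = n := by rw [tv]; ring
  generalize tv m n w = v at *
  linear_combination 2 * m ^ 2 * n * (v + n) * h + h'

lemma th_L1 (m n w : S) : L1 (th m n w 0) (th m n w 1) (th m n w 2) (th m n w 3) = m ^ 2 * n := by
  have h := th_E m n w
  have h0 : th m n w 0 = m ^ 5 * n ^ 2 := rfl
  have h1 : th m n w 1 = m * (1 - m ^ 2 * n * th m n w 2) := rfl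
  rw [L1, h0, h1]
  linear_combination m ^ 2 * h

lemma th_L2 (m n w : S) : L2 (th m n w 0) (th m n w 1) (th m n w 2) (th m n w 3) = m ^ 3 * n := by
  have h0 : th m n w 0 = m ^ 5 * n ^ 2 := rfl
  have h1 : th m n w 1 = m * (1 - m ^ 2 * n * th m n w 2) := rfl
  rw [L2, th_L1, h0, h1]
  ring

lemma th_fs (m n w : S) : fs (th m n w 0) (th m n w 1) (th m n w 2) (th m n w 3) =
    ![m ^ 3 * n, 0, m ^ 2 * n, m + m ^ 3 * n ^ 2] := by
  have h := th_E m n w
  have h0 : th m n w 0 = m ^ 5 * n ^ 2 := rfl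
  have h1 : th m n w 1 = m * (1 - m ^ 2 * n * th m n w 2) := rfl
  rw [fs, NN, th_L1, th_L2]
  congr 2
  · rw [h0]; ring
  congr 2
  rw [h0, h1]
  linear_combination m ^ 3 * n * h

lemma io_th (m n w : S) : io (th m n w 0) (th m n w 1) (th m n w 2) (th m n w 3) = ![m, n, w] := by
  have h := th_E m n w
  have h1 : th m n w 1 = m * (1 - m ^ 2 * n * th m n w 2) := rfl
  have e1 : im (th m n w 0) (th m n w 1) (th m n w 2) (th m n w 3) = m := by
    rw [im, th_L2, h1]; ring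
  have e2 : in' (th m n w 0) (th m n w 1) (th m n w 2) (th m n w 3) = m * n := by
    rw [in', e1, th_L1]
    linear_combination m * h
  have e3 : inn (th m n w 0) (th m n w 1) (th m n w 2) (th m n w 3) = n := by
    rw [inn, e1, e2, th_L1]
    linear_combination h
  rw [io, e1, e3]
  congr 3
  simp only [iw, th, Matrix.cons_val]
  have h' : n + 2 * m ^ 2 * n ^ 3 - tv m n w = m ^ 3 * n ^ 2 * w := by rw [tv]; ring
  rw [h']
  ring

lemma th_io {x u v w : S} (hx : x = L1 x u v w * L2 x u v w) :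
    th (io x u v w 0) (io x u v w 1) (io x u v w 2) = ![x, u, v, w] := by
  simp only [io, Matrix.cons_val]
  have e1 : L1 x u v w = u ^ 2 * v + x * w := rfl
  have e2 : L2 x u v w = u * L1 x u v w + x * v := rfl
  have e3 : im x u v w = u + L2 x u v w * v := rfl
  have e4 : in' x u v w = im x u v w * (1 - L1 x u v w * v) ^ 2 * v + L1 x u v w ^ 2 * w := rfl
  have e5 : inn x u v w = (1 - L1 x u v w * v) ^ 2 * v + im x u v w * in' x u v w ^ 2 * w := rfl
  generalize inn x u v w = n at *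
  generalize in' x u v w = n' at *
  generalize im x u v w = m at *
  generalize L2 x u v w = b at *
  generalize L1 x u v w = a at *
  have f1 : b = m * a := by rw [e3]; linear_combination e2 + v * hx
  have f2 : u = m * (1 - a * v) := by linear_combination -e3 - v * f1
  have f3 : a = m * n' := by
    rw [e4]; rw [f2, hx, f1] at e1; linear_combination e1
  have f4 : n' = m * n := by
    rw [e5]; linear_combination e4 + (a + m * n') * w * f3
  have f5 : a = m ^ 2 * n := by rw [f3, f4]; ring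
  rw [f4, f5] at e5
  have g1 : (n + 2 * m ^ 2 * n ^ 3 - v) * (1 - 2 * m ^ 2 * n * (v + n)) =
      m ^ 3 * n ^ 2 * (w + m * v ^ 3 - 4 * m * n ^ 2 * (v + n)) := by
    linear_combination e5
  have g2 : m ^ 3 * n ^ 2 * iw m n v w = n + 2 * m ^ 2 * n ^ 3 - v := by
    rw [iw]
    linear_combination -(1 + 2 * m ^ 2 * n * (v + n)) * g1
  have g3 : iw m n v w * (1 - 2 * m ^ 2 * n * (v + n)) = w + m * v ^ 3 - 4 * m * n ^ 2 * (v + n) := by
    rw [iw]
    linear_combination 4 * m * (v + n) ^ 2 * g1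
  have g4 : tv m n (iw m n v w) = v := by rw [tv, g2]; ring
  rw [th, g4]
  congr 1
  · rw [hx, f1, f5]; ring
  congr 1
  · rw [f2, f5]
  congr 2
  linear_combination g3

/-! ### sections and flows -/

lemma exists_sec (lam F u v w : S) : ∃ u₀ v₀ w₀,
    L1 (F + lam * (L1 F u v w * L2 F u v w)) u₀ v₀ w₀ = L1 F u v w ∧
    L2 (F + lam * (L1 F u v w * L2 F u v w)) u₀ v₀ w₀ = L2 F u v w := by
  have e1 : L1 F u v w = u ^ 2 * v + F * w := rfl
  have e2 : L2 F u v w = u * L1 F u v w + F * v := rfl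
  generalize L2 F u v w = b at *
  generalize L1 F u v w = a at *
  obtain ⟨x, hx⟩ : ∃ x, x = F + lam * (a * b) := ⟨_, rfl⟩
  obtain ⟨m, hm⟩ : ∃ m, m = u - lam * b * v := ⟨_, rfl⟩
  rw [← hx]
  have f1 : b = m * a + x * v := by rw [hm, hx]; linear_combination e2
  have f2 : u = m * (1 + lam * a * v) + lam * x * v ^ 2 := by
    linear_combination -hm + lam * v * f1
  obtain ⟨n', hn⟩ : ∃ n', n' = m * (1 + lam * a * v) ^ 2 * v - lam * a ^ 2 * w := ⟨_, rfl⟩
  obtain ⟨ρ, hρ⟩ : ∃ ρ, ρ = 2 * lam * m * (1 + lam * a * v) * v ^ 3 + lam ^ 2 * x * v ^ 5 + w -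
    lam * a * v * w := ⟨_, rfl⟩
  have f3 : a = m * n' + x * ρ := by
    have hF : F = x - lam * (a * (m * a + x * v)) := by rw [← f1, hx]; ring
    rw [f2, hF] at e1
    rw [hn, hρ]
    linear_combination e1
  obtain ⟨θ, hθ⟩ : ∃ θ, θ = 2 * lam * v ^ 2 + lam ^ 2 * a * v ^ 3 - lam * n' * w := ⟨_, rfl⟩
  have f4 : a = m ^ 2 * (v + a * θ) + x * (ρ - lam * a * m * w * ρ) := by
    rw [hθ]
    linear_combination (1 - lam * a * m * w) * f3 + m * hn
  have f5 : L1 x (m - x * θ) (v + a * θ)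
      (ρ - lam * a * m * w * ρ + (2 * m * θ - x * θ ^ 2) * (v + a * θ)) = a := by
    rw [L1]; linear_combination -f4
  refine ⟨_, _, _, f5, ?_⟩
  rw [L2, f5]
  linear_combination -f1

lemma flow_L1 (x u v w s : S) : L1 x (u + x ^ 2 * s) (v - x * L1 x u v w * s)
    (w - 2 * u * v * x * s - x ^ 3 * s ^ 2 * v + L1 x u v w * s * (u + x ^ 2 * s) ^ 2) =
    L1 x u v w := by
  simp only [L1]; ring

lemma flow_L2 (x u v w s : S) : L2 x (u + x ^ 2 * s) (v - x * L1 x u v w * s)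
    (w - 2 * u * v * x * s - x ^ 3 * s ^ 2 * v + L1 x u v w * s * (u + x ^ 2 * s) ^ 2) =
    L2 x u v w := by
  rw [L2, flow_L1, L2]; ring

lemma exists_shift [IsDomain S] {x u v w u' v' w' : S} (hx : Prime x) (hu : ¬ x ∣ u)
    (ha : ¬ x ∣ L1 x u v w) (h1 : L1 x u' v' w' = L1 x u v w) (h2 : L2 x u' v' w' = L2 x u v w) :
    ∃ τ, u = u' + x ^ 2 * τ := by
  rw [L2, L2, h1] at h2
  have e1 : L1 x u v w = u ^ 2 * v + x * w := rfl
  rw [L1] at h1
  generalize L1 x u v w = a at *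
  obtain ⟨s, hs⟩ : x ∣ u' - u :=
    (hx.dvd_or_dvd (a := u' - u) (b := a) ⟨v - v', by linear_combination h2⟩).resolve_right ha
  have hv : v' = v - a * s := mul_left_cancel₀ hx.ne_zero (by linear_combination h2 - a * hs)
  have hu' : u' = u + x * s := by linear_combination hs
  rw [hv, hu'] at h1
  have h3 : x ∣ u ^ 2 * a * s :=
    ⟨w' - w + (2 * u * s + x * s ^ 2) * (v - a * s), by linear_combination -h1 - e1⟩
  obtain ⟨τ, hτ⟩ : x ∣ s := by
    rcases hx.dvd_or_dvd h3 with h | h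
    · rcases hx.dvd_or_dvd h with h | h
      · exact absurd (hx.dvd_of_dvd_pow h) hu
      · exact absurd h ha
    · exact h
  exact ⟨-τ, by rw [hu', hτ]; ring⟩

end

end Crest.Agent.R268
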