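import Crest.Agent.R268.Stab
import Crest.Agent.R268.Crit

set_option autoImplicit false

namespace Crest.Agent.R268

open MvPolynomial Crest.Agent.R256

noncomputable def yS : Fin 4 → R := fs (X 0) (X 1) (X 2) (X 3)

lemma gen_yS : Gen yS := by
  have hh : yS 1 ∈ (aeval yS : R →ₐ[ℂ] R).range := ⟨X 1, by simp⟩
  obtain ⟨h0, h1, h2, h3⟩ := fs_gen (X 0) (X 1) (X 2) (X 3) (sat (yS 1) _ hh)
    (fun i => mem_sat_of_mem ⟨X i, by simp [yS]⟩) (fun n f hf => mem_sat_of_pow_mul n hf)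
  refine gen_of_X fun i => ?_
  have : (X i : R) ∈ sat (yS 1) (aeval yS : R →ₐ[ℂ] R).range hh := by
    fin_cases i
    exacts [h0, h1, h2, h3]
  obtain ⟨N, G, hG⟩ := this
  exact ⟨N, G, hG.symm⟩

lemma exists_piS {S : Type*} [CommRing S] [Algebra ℂ S] [IsDomain S] {t t' : S} (ht : t * t' = 1)
    (a b c : S) (hx : t + a * b ≠ 0) : ∃ p : R →ₐ[ℂ] S, ∀ i, p (yS i) = ![b, t, a, c] i := by
  obtain ⟨x, u, v, w, h⟩ := fs_surj ht a b c hx
  refine ⟨aeval ![x, u, v, w], fun i => ?_⟩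
  rw [yS, map_fs, ← h]
  simp

lemma exists_piSL : ∃ p : R →ₐ[ℂ] L, ∀ i, p (yS i) = xL i := by
  obtain ⟨p, hp⟩ := exists_piS (xL_mul_xI 1) (xL 2) (xL 0) (xL 3) (fun h => by
    have := congrArg aug h
    simp [aug_xL] at this)
  refine ⟨p, fun i => ?_⟩
  rw [hp]
  fin_cases i <;> rfl

abbrev P3 := MvPolynomial (Fin 3) ℂ

noncomputable def thS : R →ₐ[ℂ] P3 := aeval (th (X 0) (X 1) (X 2))

lemma thS_yS (i : Fin 4) : thS (yS i) =
    ![X 0 ^ 3 * X 1, 0, X 0 ^ 2 * X 1, X 0 + X 0 ^ 3 * X 1 ^ 2] i := by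
  rw [yS, map_fs, ← th_fs (X 0) (X 1) (X 2)]
  simp [thS]

lemma fibre_zero : Nonempty ((R ⧸ Ideal.span {yS 1}) ≃ₐ[ℂ] P3) := by
  let e : P3 →ₐ[ℂ] R := aeval (io (X 0) (X 1) (X 2) (X 3))
  have hpe : ∀ G, thS (e G) = G := by
    intro G
    have : thS.comp e = AlgHom.id ℂ _ := by
      ext1 i
      have h := congrFun (io_th (X 0 : P3) (X 1) (X 2)) i
      rw [AlgHom.comp_apply, aeval_X, map_io]
      simp only [thS, aeval_X]
      rw [h]
      fin_cases i <;> rfl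
    exact DFunLike.congr_fun this G
  have hsurj : Function.Surjective thS := fun G => ⟨e G, hpe G⟩
  have hker : RingHom.ker thS = Ideal.span {yS 1} := by
    apply le_antisymm
    · intro f hf
      rw [RingHom.mem_ker] at hf
      let q := Ideal.Quotient.mkₐ ℂ (Ideal.span {yS 1})
      have hq : q (fs (X 0) (X 1) (X 2) (X 3) 1) = 0 :=
        Ideal.Quotient.eq_zero_iff_mem.mpr (Ideal.mem_span_singleton_self _)
      rw [map_fs] at hq
      have h4 : q = q.comp (e.comp thS) := by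
        ext1 i
        have h := congrFun (th_io (sub_eq_zero.mp hq)) i
        simp only [AlgHom.comp_apply, thS, aeval_X, map_th, e, map_io]
        rw [h]
        fin_cases i <;> rfl
      have h5 := DFunLike.congr_fun h4 f
      simp only [AlgHom.comp_apply] at h5
      rw [hf, map_zero, map_zero] at h5
      exact Ideal.Quotient.eq_zero_iff_mem.mp h5
    · rw [Ideal.span_singleton_le_iff_mem, RingHom.mem_ker, thS_yS]
      rfl
  exact ⟨(Ideal.quotientEquivAlgOfEq ℂ hker.symm).trans (Ideal.quotientKerAlgEquivOfSurjective hsurj)⟩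

lemma fibre_yS (c : ℂ) : Nonempty ((R ⧸ Ideal.span {yS 1 - C c}) ≃ₐ[ℂ] P3) := by
  by_cases hc : c = 0
  · rw [hc, map_zero, sub_zero]; exact fibre_zero
  · obtain ⟨p, hp⟩ := exists_piS (S := P3) (t := C c) (t' := C c⁻¹)
      (by rw [← map_mul, mul_inv_cancel₀ hc, map_one]) (X 1) (X 0) (X 2) (fun h => by
        have := congrArg (eval fun _ => (0 : ℂ)) h
        simp [hc] at this)
    exact fibre_iso gen_yS hc p (hp 0) (hp 1) (hp 2) (hp 3)

/-! ### stable coordinate -/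

noncomputable def aa : R := L1 (X 0) (X 1) (X 2) (X 3)
noncomputable def bb : R := L2 (X 0) (X 1) (X 2) (X 3)
noncomputable def bs (lam : ℂ) : R := X 0 + C lam * (aa * bb)

local notation "PC" => (Polynomial.C : R →+* Polynomial R)

/-- the data of one half of the fibre product trick -/
structure Half (lam : ℂ) where
  φ : R →ₐ[ℂ] Polynomial R
  s : R
  v : R
  w : R
  h0 : φ (X 0) = PC (bs lam)
  h1 : φ (X 1) = PC s + PC (bs lam) ^ 2 * Polynomial.X
  ha : φ aa = PC aa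
  hb : φ bb = PC bb
  ha' : L1 (bs lam) s v w = aa
  hb' : L2 (bs lam) s v w = bb

lemma exists_half (lam : ℂ) : Nonempty (Half lam) := by
  obtain ⟨s, v, w, h1, h2⟩ := exists_sec (C lam : R) (X 0) (X 1) (X 2) (X 3)
  change L1 (bs lam) s v w = aa at h1
  change L2 (bs lam) s v w = bb at h2
  have e1 := flow_L1 (PC (bs lam)) (PC s) (PC v) (PC w) Polynomial.X
  have e2 := flow_L2 (PC (bs lam)) (PC s) (PC v) (PC w) Polynomial.X
  generalize (PC v - _ : Polynomial R) = v' at e1 e2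
  generalize (PC w - _ - _ + _ : Polynomial R) = w' at e1 e2
  rw [← map_L1, h1] at e1
  rw [← map_L2, h2] at e2
  refine ⟨⟨aeval ![PC (bs lam), PC s + PC (bs lam) ^ 2 * Polynomial.X, v', w'], s, v, w,
    by simp, by simp, ?_, ?_, h1, h2⟩⟩
  · rw [← e1, aa, map_L1]; simp
  · rw [← e2, bb, map_L2]; simp

lemma Half.map_bs {lam : ℂ} (H : Half lam) (mu : ℂ) : H.φ (bs mu) = PC (bs (lam + mu)) := by
  rw [bs, map_add, map_mul, map_mul, H.h0, H.ha, H.hb, algHom_C, bs, bs]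
  have : algebraMap ℂ (Polynomial R) mu = PC (C mu) := rfl
  rw [this]
  simp only [map_add, map_mul]
  ring

lemma bs_zero : bs 0 = X 0 := by simp [bs]

lemma bs_ne_zero (lam : ℂ) : bs lam ≠ 0 := fun h => by
  have := congrArg (eval ![1, 0, 0, 0]) h
  simp [bs, aa, L1] at this

lemma exists_tau {lam mu : ℂ} (h : lam + mu = 0) (H : Half lam) (H' : Half mu) :
    ∃ τ, PC (X 1) = H.φ H'.s + PC (X 0) ^ 2 * τ := by
  have hb : H.φ (bs mu) = PC (X 0) := by rw [H.map_bs, h, bs_zero]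
  have hnd : ∀ g : R, eval ![0, 1, 1, 0] g ≠ 0 → ¬ PC (X 0) ∣ PC g := by
    rintro g hg ⟨r, hr⟩
    have := congrArg (fun z => eval ![0, 1, 1, 0] (Polynomial.eval 0 z)) hr
    simp [hg] at this
  refine exists_shift (v := PC (X 2)) (w := PC (X 3)) (v' := H.φ H'.v) (w' := H.φ H'.w)
    (Polynomial.prime_C_iff.mpr X_prime) (hnd _ (by simp)) ?_ ?_ ?_
  · rw [← map_L1]; exact hnd _ (by simp [L1])
  · rw [← map_L1 PC, ← hb, ← map_L1, H'.ha', H.ha, aa]
  · rw [← map_L2 PC, ← hb, ← map_L2, H'.hb', H.hb, bb]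

lemma comp_eq_id {lam mu : ℂ} (h : lam + mu = 0) (H : Half lam) (H' : Half mu)
    {τ τ' : Polynomial R} (hτ : PC (X 1) = H.φ H'.s + PC (X 0) ^ 2 * τ)
    (hτ' : PC (X 1) = H'.φ H.s + PC (X 0) ^ 2 * τ') :
    (Polynomial.aevalTower H.φ τ).comp (Polynomial.aevalTower H'.φ τ') = AlgHom.id ℂ _ := by
  set Φ := Polynomial.aevalTower H.φ τ with hΦ
  have hC : ∀ g, Φ (PC g) = H.φ g := fun g => Polynomial.aevalTower_C _ _ g
  have hb : H.φ (bs mu) = PC (X 0) := by rw [H.map_bs, h, bs_zero]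
  let ψ : R →ₐ[ℂ] Polynomial R := Φ.comp H'.φ
  have p0 : ψ (X 0) = PC (X 0) := by rw [AlgHom.comp_apply, H'.h0, hC, hb]
  have p1 : ψ (X 1) = PC (X 1) := by
    rw [AlgHom.comp_apply, H'.h1, map_add, map_mul, map_pow, hC, hC, hb, hΦ,
      Polynomial.aevalTower_X, ← hτ]
  have pa : ψ aa = PC aa := by rw [AlgHom.comp_apply, H'.ha, hC, H.ha]
  have pb : ψ bb = PC bb := by rw [AlgHom.comp_apply, H'.hb, hC, H.hb]
  have hx0 : PC (X 0) ≠ 0 := Polynomial.C_ne_zero.mpr (X_ne_zero _)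
  have p2 : ψ (X 2) = PC (X 2) := by
    have : bb = X 1 * aa + X 0 * X 2 := rfl
    rw [this] at pb
    simp only [map_add, map_mul, p0, p1, pa] at pb
    exact mul_left_cancel₀ hx0 (by linear_combination pb)
  have p3 : ψ (X 3) = PC (X 3) := by
    have : aa = X 1 ^ 2 * X 2 + X 0 * X 3 := rfl
    rw [this] at pa
    simp only [map_add, map_mul, map_pow, p0, p1, p2] at pa
    exact mul_left_cancel₀ hx0 (by linear_combination pa)
  have hψ : ψ = Polynomial.CAlgHom := by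
    ext1 i
    fin_cases i
    exacts [p0, p1, p2, p3]
  have hψ' : ∀ g, Φ (H'.φ g) = PC g := fun g => DFunLike.congr_fun hψ g
  refine Polynomial.algHom_ext' ?_ ?_
  · refine AlgHom.ext fun g => ?_
    simp only [AlgHom.comp_apply, AlgHom.id_apply, Polynomial.CAlgHom_apply,
      Polynomial.aevalTower_C, hψ']
  · rw [AlgHom.comp_apply, Polynomial.aevalTower_X, AlgHom.id_apply]
    have h1 := congrArg Φ hτ'
    rw [map_add, map_mul, map_pow, hC, hC, hψ', H.h1, H.h0] at h1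
    exact mul_left_cancel₀ (pow_ne_zero 2 (Polynomial.C_ne_zero.mpr (bs_ne_zero lam)))
      (by linear_combination -h1)

lemma stable_yS : ∃ σ : Polynomial R ≃ₐ[ℂ] Polynomial R, σ (PC (yS 1)) = PC (X 0) := by
  obtain ⟨H⟩ := exists_half 1
  obtain ⟨H'⟩ := exists_half (-1)
  obtain ⟨τ, hτ⟩ := exists_tau (add_neg_cancel 1) H H'
  obtain ⟨τ', hτ'⟩ := exists_tau (neg_add_cancel 1) H' H
  refine ⟨AlgEquiv.ofAlgHom _ _ (comp_eq_id (add_neg_cancel 1) H H' hτ hτ')
    (comp_eq_id (neg_add_cancel 1) H' H hτ' hτ), ?_⟩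
  change Polynomial.aevalTower H.φ τ (PC (yS 1)) = _
  have : yS 1 = bs (-1) := by
    change X 0 - aa * bb = _
    rw [bs]; simp [sub_eq_add_neg]
  rw [Polynomial.aevalTower_C, this, H.map_bs, add_neg_cancel, bs_zero]

end Crest.Agent.R268
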