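import Crest.Agent.R268.StabMain

set_option autoImplicit false

namespace Crest.Agent.R268

open AddMonoidAlgebra Crest.Agent.R256

def e2 (m : M) : ℤ := m 0 + m 2 + 3 * m 3

def Hm (p q : ℤ) : L → Prop := Supp fun m => d1 m = p ∧ e2 m = q
def Lw (p q : ℤ) : L → Prop := Supp fun m => d1 m < p ∨ (d1 m = p ∧ e2 m < q)

def TR (p q : ℤ) (f h : L) : Prop := Hm p q h ∧ Lw p q (f - h)

lemma e2_add (m n : M) : e2 (m + n) = e2 m + e2 n := by simp only [e2, Pi.add_apply]; ring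

lemma Hm.topRel {p q : ℤ} {h : L} (hh : Hm p q h) : TR p q h h :=
  ⟨hh, by rw [sub_self]; exact Supp.zero _⟩

lemma Hm.mul {p q p' q' : ℤ} {f g : L} (hf : Hm p q f) (hg : Hm p' q' g) :
    Hm (p + p') (q + q') (f * g) :=
  Supp.mul hf hg fun m n hm hn => by rw [d1_add, e2_add]; omega

lemma TR.add {p q : ℤ} {f g h k : L} (h1 : TR p q f h) (h2 : TR p q g k) :
    TR p q (f + g) (h + k) :=
  ⟨Supp.add h1.1 h2.1, by rw [add_sub_add_comm]; exact Supp.add h1.2 h2.2⟩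

lemma TR.sub {p q : ℤ} {f g h k : L} (h1 : TR p q f h) (h2 : TR p q g k) :
    TR p q (f - g) (h - k) :=
  ⟨Supp.sub h1.1 h2.1, by rw [sub_sub_sub_comm]; exact Supp.sub h1.2 h2.2⟩

lemma TR.mul {p q p' q' : ℤ} {f g h k : L} (h1 : TR p q f h) (h2 : TR p' q' g k) :
    TR (p + p') (q + q') (f * g) (h * k) := by
  refine ⟨h1.1.mul h2.1, ?_⟩
  have : f * g - h * k = (f - h) * (g - k) + (f - h) * k + h * (g - k) := by ring
  rw [this]
  refine Supp.add (Supp.add ?_ ?_) ?_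
  · exact Supp.mul h1.2 h2.2 fun m n hm hn => by rw [d1_add, e2_add]; omega
  · exact Supp.mul h1.2 h2.1 fun m n hm hn => by rw [d1_add, e2_add]; omega
  · exact Supp.mul h1.1 h2.2 fun m n hm hn => by rw [d1_add, e2_add]; omega

lemma TR.cast {p q p' q' : ℤ} {f h : L} (h1 : TR p q f h) (hp : p = p') (hq : q = q') :
    TR p' q' f h := by subst hp hq; exact h1

lemma TR.mulCoef {p q : ℤ} {f h : L} (h1 : TR p q f h) (χ : M → ℂ) :
    TR p q (mulCoef χ f) (mulCoef χ h) :=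
  ⟨Supp.mulCoef h1.1 χ, by rw [← map_sub]; exact Supp.mulCoef h1.2 χ⟩

lemma TR.smul {p q : ℤ} {f h : L} (h1 : TR p q f h) (c : ℂ) :
    TR p q (c • f) (c • h) :=
  ⟨Supp.smul h1.1 c, by rw [← smul_sub]; exact Supp.smul h1.2 c⟩

lemma TR.supp {p q : ℤ} {f h : L} (h1 : TR p q f h) {S : M → Prop} (hf : Supp S f) :
    Supp S h := by
  intro m hm
  refine hf m fun h0 => ?_
  have h2 := h1.1 m hm
  have h3 := h1.2 m (by simpa [h0] using hm)
  omega

lemma TR.eq_zero {p q : ℤ} {h : L} (h1 : TR p q 0 h) : h = 0 :=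
  (h1.supp (Supp.zero _)).eq_zero

lemma hm_one : Hm 0 0 1 := Supp.single (by simp [d1, e2]) _

lemma TR.pow {p q : ℤ} {f h : L} (h1 : TR p q f h) (n : ℕ) :
    TR (n * p) (n * q) (f ^ n) (h ^ n) := by
  induction n with
  | zero => simpa using hm_one.topRel
  | succ n ih =>
    rw [pow_succ, pow_succ]
    exact (ih.mul h1).cast (by push_cast; ring) (by push_cast; ring)

lemma exists_tp {ι : Type*} [Fintype ι] (w : ι → L) (hw : ∃ i, w i ≠ 0) :
    ∃ (p q : ℤ) (η : ι → L), (∀ i, TR p q (w i) (η i)) ∧ ∃ i, η i ≠ 0 := by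
  classical
  let s : Finset M := Finset.univ.biUnion fun i => (w i).coeff.support
  have hs : s.Nonempty := by
    obtain ⟨i, hi⟩ := hw
    obtain ⟨m, hm⟩ := Finsupp.support_nonempty_iff.mpr (show (w i).coeff ≠ 0 by simpa using hi)
    exact ⟨m, Finset.mem_biUnion.mpr ⟨i, Finset.mem_univ _, hm⟩⟩
  obtain ⟨m₀, hm₀, hmax⟩ := s.exists_max_image (fun m => toLex (d1 m, e2 m)) hs
  refine ⟨d1 m₀, e2 m₀, fun i => mulCoef (fun m => if d1 m = d1 m₀ ∧ e2 m = e2 m₀ then 1 else 0) (w i),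
    fun i => ⟨fun m hm => ?_, fun m hm => ?_⟩, ?_⟩
  · rw [coeff_mulCoef] at hm
    by_contra h
    simp [h] at hm
  · rw [coeff_sub, Finsupp.sub_apply, coeff_mulCoef] at hm
    have h1 : (w i).coeff m ≠ 0 := fun h => hm (by simp [h])
    have h2 := hmax m (Finset.mem_biUnion.mpr ⟨i, Finset.mem_univ _, Finsupp.mem_support_iff.mpr h1⟩)
    rw [Prod.Lex.toLex_le_toLex] at h2
    have h3 : ¬ (d1 m = d1 m₀ ∧ e2 m = e2 m₀) := fun h => hm (by simp [h])
    simp only at h2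
    omega
  · obtain ⟨i, -, hi⟩ := Finset.mem_biUnion.mp hm₀
    refine ⟨i, fun h => Finsupp.mem_support_iff.mp hi ?_⟩
    have := congrArg (fun f : L => f.coeff m₀) h
    simpa [coeff_mulCoef] using this


lemma hm_xL0 : Hm 0 1 (xL 0) := Supp.single (by simp [d1, e2]) _
lemma hm_xL1 : Hm (-1) 0 (xL 1) := Supp.single (by simp [d1, e2]) _
lemma hm_xL2 : Hm 0 1 (xL 2) := Supp.single (by simp [d1, e2]) _
lemma hm_xL3 : Hm 0 3 (xL 3) := Supp.single (by simp [d1, e2]) _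
lemma hm_xI1 : Hm 1 0 (xI 1) := Supp.single (by simp [d1, e2]) _

lemma TR.dsum {w η : Fin 4 → L} {k₁ k₂ : ℤ} (hw : ∀ r, TR k₁ k₂ (w r) (η r)) {p q : ℤ}
    {f h : L} (hf : TR p q f h) : TR (p + k₁) (q + k₂) (Dsum w f) (Dsum η h) := by
  rw [Dsum_apply, Dsum_apply, add_comm p, add_comm q]
  exact ((((hw 0).mul (hf.mulCoef _)).add ((hw 1).mul (hf.mulCoef _))).add
    ((hw 2).mul (hf.mulCoef _))).add ((hw 3).mul (hf.mulCoef _))

/-- the surface `abc = b² + a⁴` -/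
noncomputable def qq : R := ra * rb * rc - ra ^ 2 - rb ^ 4

lemma top_qq : TR 0 5 (inc qq) (xL 0 * xL 2 * xL 3) := by
  have h0 := hm_xL0
  have h2 := hm_xL2
  have h3 := hm_xL3
  refine ⟨(h0.mul h2).mul h3, ?_⟩
  have : inc qq - xL 0 * xL 2 * xL 3 = -(xL 0 * xL 0) - xL 2 * xL 2 * xL 2 * xL 2 := by
    simp only [qq, map_sub, map_mul, map_pow, inc_X]; ring
  rw [this]
  refine Supp.sub (Supp.neg ?_) ?_
  · exact Supp.mono (h0.mul h0) fun m hm => by omega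
  · exact Supp.mono (((h2.mul h2).mul h2).mul h2) fun m hm => by omega

end Crest.Agent.R268
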